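import Mathlib

/-!
The Banach group algebra `ℓ¹(G, R)` with coefficients in a complete normed ring, its class
traces, and the fact that nearby idempotents have equal traces.
-/

namespace Vale.Agent.P184

section

variable (G : Type*) [Group G] (R : Type*) [NormedRing R]

/-- Absolutely summable functions `G → R`. -/
def l1Sub : AddSubgroup (G → R) where
  carrier := {a | Summable fun g => ‖a g‖}
  zero_mem' := by simpa using (summable_zero : Summable fun _ : G => (0 : ℝ))
  add_mem' := by
    intro a b ha hb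
    exact Summable.of_nonneg_of_le (fun g => norm_nonneg _) (fun g => norm_add_le _ _) (ha.add hb)
  neg_mem' := by
    intro a ha
    simpa using ha

/-- The underlying type of `ℓ¹(G, R)`. -/
abbrev L1 := ↥(l1Sub G R)

end

variable {G : Type*} [Group G] {R : Type*} [NormedRing R]

theorem L1.summable_norm (a : L1 G R) : Summable fun g => ‖(a : G → R) g‖ := a.2

/-- Convolution. -/
noncomputable def conv (a b : G → R) (g : G) : R := ∑' h, a h * b (h⁻¹ * g)

/-- Change of variables `(h, g) ↦ (h, h⁻¹ g)`. -/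
def shear (G : Type*) [Group G] : G × G ≃ G × G where
  toFun p := (p.1, p.1⁻¹ * p.2)
  invFun p := (p.1, p.1 * p.2)
  left_inv p := by simp
  right_inv p := by simp

theorem summable_conv_pair {a b : G → R} (ha : Summable fun g => ‖a g‖)
    (hb : Summable fun g => ‖b g‖) :
    Summable fun p : G × G => ‖a p.1 * b (p.1⁻¹ * p.2)‖ := by
  have h := Summable.mul_of_nonneg ha hb (fun g => norm_nonneg _) (fun g => norm_nonneg _)
  have h2 := ((shear G).summable_iff).2 h
  exact Summable.of_nonneg_of_le (fun p => norm_nonneg _) (fun p => norm_mul_le _ _) h2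

variable [CompleteSpace R]

theorem summable_conv_term {a b : G → R} (ha : Summable fun g => ‖a g‖)
    (hb : Summable fun g => ‖b g‖) (g : G) : Summable fun h => a h * b (h⁻¹ * g) := by
  apply Summable.of_norm
  exact (summable_conv_pair ha hb).comp_injective (i := fun h : G => (h, g))
    (fun x y hxy => (Prod.mk.injEq _ _ _ _ ▸ hxy).1)

theorem summable_norm_conv {a b : G → R} (ha : Summable fun g => ‖a g‖)
    (hb : Summable fun g => ‖b g‖) : Summable fun g => ‖conv a b g‖ := by
  have h := (summable_conv_pair ha hb).prod_symm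
  have h1 := (summable_prod_of_nonneg (fun p => norm_nonneg _)).1 h
  exact Summable.of_nonneg_of_le (fun g => norm_nonneg _)
    (fun g => norm_tsum_le_tsum_norm (h1.1 g)) h1.2

theorem conv_assoc {a b c : G → R} (ha : Summable fun g => ‖a g‖)
    (hb : Summable fun g => ‖b g‖) (hc : Summable fun g => ‖c g‖) :
    conv (conv a b) c = conv a (conv b c) := by
  funext g
  have hsum : Summable (Function.uncurry fun (k : G) (l : G) =>
      a k * b (k⁻¹ * l) * c (l⁻¹ * g)) := by
    apply Summable.of_norm
    obtain ⟨B, hB⟩ : ∃ B, ∀ x, ‖c x‖ ≤ B :=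
      ⟨∑' x, ‖c x‖, fun x => hc.le_tsum x (fun y _ => norm_nonneg _)⟩
    refine Summable.of_nonneg_of_le (fun p => norm_nonneg _) ?_
      ((summable_conv_pair ha hb).mul_right B)
    rintro ⟨k, l⟩
    exact (norm_mul_le _ _).trans (mul_le_mul_of_nonneg_left (hB _) (norm_nonneg _))
  calc conv (conv a b) c g = ∑' l, ∑' k, a k * b (k⁻¹ * l) * c (l⁻¹ * g) := by
        unfold conv
        refine tsum_congr fun l => ?_
        rw [← (summable_conv_term ha hb l).tsum_mul_right]
    _ = ∑' k, ∑' l, a k * b (k⁻¹ * l) * c (l⁻¹ * g) := hsum.tsum_comm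
    _ = conv a (conv b c) g := by
        unfold conv
        refine tsum_congr fun k => ?_
        rw [← (summable_conv_term hb hc _).tsum_mul_left,
          ← (Equiv.mulLeft k).tsum_eq (fun l => a k * b (k⁻¹ * l) * c (l⁻¹ * g))]
        refine tsum_congr fun m => ?_
        simp [mul_assoc]

noncomputable instance : Mul (L1 G R) :=
  ⟨fun a b => ⟨conv a.1 b.1, summable_norm_conv a.2 b.2⟩⟩

theorem L1.mul_apply (a b : L1 G R) (g : G) :
    (a * b : L1 G R).1 g = ∑' h, a.1 h * b.1 (h⁻¹ * g) := rfl

open Classical in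
noncomputable instance : One (L1 G R) :=
  ⟨⟨fun g => if g = 1 then 1 else 0,
    summable_of_ne_finset_zero (s := {1}) (fun g hg => by simp_all)⟩⟩

open Classical in
theorem L1.one_apply (g : G) : (1 : L1 G R).1 g = if g = 1 then 1 else 0 := rfl

noncomputable instance : Ring (L1 G R) where
  __ := (inferInstance : AddCommGroup (L1 G R))
  mul_assoc a b c := Subtype.ext (conv_assoc a.2 b.2 c.2)
  one_mul a := by
    ext g
    rw [L1.mul_apply, tsum_eq_single (1 : G)] <;> simp +contextual [L1.one_apply]
  mul_one a := by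
    ext g
    rw [L1.mul_apply, tsum_eq_single g]
    · simp [L1.one_apply]
    · intro h hh
      rw [L1.one_apply, if_neg, mul_zero]
      rw [inv_mul_eq_one]
      exact hh
  zero_mul a := by
    ext g
    simp [L1.mul_apply]
  mul_zero a := by
    ext g
    simp [L1.mul_apply]
  left_distrib a b c := by
    ext g
    simp only [AddSubgroup.coe_add, Pi.add_apply, L1.mul_apply, mul_add]
    exact (summable_conv_term a.2 b.2 g).tsum_add (summable_conv_term a.2 c.2 g)
  right_distrib a b c := by
    ext g
    simp only [AddSubgroup.coe_add, Pi.add_apply, L1.mul_apply, add_mul]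
    exact (summable_conv_term a.2 c.2 g).tsum_add (summable_conv_term b.2 c.2 g)

/-- The `ℓ¹` norm. -/
noncomputable def l1norm (a : L1 G R) : ℝ := ∑' g, ‖a.1 g‖

theorem l1norm_nonneg (a : L1 G R) : 0 ≤ l1norm a := tsum_nonneg fun _ => norm_nonneg _

theorem l1norm_mul_le (a b : L1 G R) : l1norm (a * b) ≤ l1norm a * l1norm b := by
  have ha := a.summable_norm
  have hb := b.summable_norm
  have h := (summable_conv_pair ha hb).prod_symm
  have h1 := (summable_prod_of_nonneg (fun p => norm_nonneg _)).1 h
  have hm := Summable.mul_of_nonneg ha hb (fun g => norm_nonneg _) (fun g => norm_nonneg _)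
  have hm2 : Summable fun p : G × G => ‖a.1 p.1‖ * ‖b.1 (p.1⁻¹ * p.2)‖ :=
    ((shear G).summable_iff).2 hm
  calc l1norm (a * b) ≤ ∑' g, ∑' h, ‖a.1 h * b.1 (h⁻¹ * g)‖ := by
        refine Summable.tsum_le_tsum (fun g => ?_) (a * b).2 h1.2
        exact norm_tsum_le_tsum_norm (h1.1 g)
    _ = ∑' p : G × G, ‖a.1 p.1 * b.1 (p.1⁻¹ * p.2)‖ := by
        rw [← (Equiv.prodComm G G).tsum_eq]
        exact h.tsum_prod.symm
    _ ≤ ∑' p : G × G, ‖a.1 p.1‖ * ‖b.1 (p.1⁻¹ * p.2)‖ :=
        (summable_conv_pair ha hb).tsum_le_tsum (fun p => norm_mul_le _ _) hm2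
    _ = ∑' p : G × G, ‖a.1 p.1‖ * ‖b.1 p.2‖ :=
        (shear G).tsum_eq (fun p : G × G => ‖a.1 p.1‖ * ‖b.1 p.2‖)
    _ = l1norm a * l1norm b := (ha.tsum_mul_tsum hb hm).symm

theorem l1norm_pow_le (a : L1 G R) (k : ℕ) : l1norm (a ^ (k + 1)) ≤ l1norm a ^ (k + 1) := by
  induction k with
  | zero => simp
  | succ k ih =>
      rw [pow_succ (n := k + 1), pow_succ (l1norm a) (k + 1)]
      exact (l1norm_mul_le _ _).trans (mul_le_mul_of_nonneg_right ih (l1norm_nonneg a))

variable (tr : R →+ ℂ) (c : ℝ) (hbd : ∀ x, ‖tr x‖ ≤ c * ‖x‖)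
  (hcomm : ∀ x y, tr (x * y) = tr (y * x))

/-- The trace at a conjugation-invariant set `S`. -/
noncomputable def classTrace (S : Set G) (a : L1 G R) : ℂ :=
  ∑' g, S.indicator (fun g => tr (a.1 g)) g

include hbd in
theorem summable_classTerm (S : Set G) (a : L1 G R) :
    Summable fun g => S.indicator (fun g => tr (a.1 g)) g := by
  refine Summable.of_norm_bounded (a.2.mul_left c) fun g => ?_
  exact (norm_indicator_le_norm_self _ _).trans (hbd _)

include hbd in
theorem classTrace_sub (S : Set G) (a b : L1 G R) :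
    classTrace tr S (a - b) = classTrace tr S a - classTrace tr S b := by
  unfold classTrace
  rw [← (summable_classTerm tr c hbd S a).tsum_sub (summable_classTerm tr c hbd S b)]
  refine tsum_congr fun g => ?_
  by_cases hg : g ∈ S <;> simp [hg]

include hbd in
theorem norm_classTrace_le (S : Set G) (a : L1 G R) :
    ‖classTrace tr S a‖ ≤ c * l1norm a := by
  refine (norm_tsum_le_tsum_norm ?_).trans ?_
  · exact Summable.of_nonneg_of_le (fun g => norm_nonneg _)
      (fun g => (norm_indicator_le_norm_self _ _).trans (hbd _)) (a.2.mul_left c)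
  · rw [l1norm, ← tsum_mul_left]
    refine Summable.tsum_le_tsum (fun g => (norm_indicator_le_norm_self _ _).trans (hbd _)) ?_
      (a.2.mul_left c)
    exact Summable.of_nonneg_of_le (fun g => norm_nonneg _)
      (fun g => (norm_indicator_le_norm_self _ _).trans (hbd _)) (a.2.mul_left c)

include hbd in
theorem classTrace_mul (S : Set G) (a b : L1 G R) :
    classTrace tr S (a * b) =
      ∑' p : G × G, S.indicator (fun _ => tr (a.1 p.1 * b.1 p.2)) (p.1 * p.2) := by
  classical
  have hcont : Continuous tr :=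
    AddMonoidHomClass.continuous_of_bound tr c hbd
  obtain ⟨F, hF⟩ : ∃ F : G × G → ℂ, F = fun p =>
    S.indicator (fun _ => tr (a.1 p.1 * b.1 p.2)) (p.1 * p.2) := ⟨_, rfl⟩
  rw [← hF]
  have hm : Summable fun p : G × G => ‖a.1 p.1‖ * ‖b.1 p.2‖ :=
    Summable.mul_of_nonneg (f := fun g : G => ‖a.1 g‖) (g := fun g : G => ‖b.1 g‖)
      a.summable_norm b.summable_norm (fun g => norm_nonneg _) (fun g => norm_nonneg _)
  have hbound : ∀ p : G × G, ‖F p‖ ≤ |c| * (‖a.1 p.1‖ * ‖b.1 p.2‖) := by
    intro p
    subst hF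
    calc _ ≤ ‖tr (a.1 p.1 * b.1 p.2)‖ :=
          norm_indicator_le_norm_self (fun _ : G => tr (a.1 p.1 * b.1 p.2)) (p.1 * p.2)
      _ ≤ c * ‖a.1 p.1 * b.1 p.2‖ := hbd _
      _ ≤ |c| * ‖a.1 p.1 * b.1 p.2‖ :=
          mul_le_mul_of_nonneg_right (le_abs_self c) (norm_nonneg _)
      _ ≤ |c| * (‖a.1 p.1‖ * ‖b.1 p.2‖) :=
          mul_le_mul_of_nonneg_left (norm_mul_le _ _) (abs_nonneg c)
  have hFs : Summable F := Summable.of_norm_bounded (hm.mul_left |c|) hbound
  let σ : G × G ≃ G × G := (Equiv.prodComm G G).trans (shear G)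
  have h1 : ∑' p, F p = ∑' q, F (σ q) := (σ.tsum_eq F).symm
  have h2 : Summable fun q => F (σ q) := hFs.comp_injective (i := σ) σ.injective
  rw [h1, h2.tsum_prod]
  unfold classTrace
  refine tsum_congr fun g => ?_
  by_cases hg : g ∈ S
  · rw [Set.indicator_of_mem hg, L1.mul_apply,
      (summable_conv_term a.2 b.2 g).map_tsum tr hcont]
    refine tsum_congr fun h => ?_
    simp [hF, σ, shear, Set.indicator_of_mem hg]
  · rw [Set.indicator_of_notMem hg]
    simp [hF, σ, shear, Set.indicator_of_notMem hg]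

include hbd hcomm in
theorem classTrace_comm {S : Set G} (hS : ∀ x y : G, x * y ∈ S → y * x ∈ S) (a b : L1 G R) :
    classTrace tr S (a * b) = classTrace tr S (b * a) := by
  classical
  rw [classTrace_mul tr c hbd, classTrace_mul tr c hbd, ← (Equiv.prodComm G G).tsum_eq]
  refine tsum_congr fun p => ?_
  obtain ⟨x, y⟩ := p
  by_cases h : y * x ∈ S
  · simp [Set.indicator_of_mem h, Set.indicator_of_mem (hS y x h), hcomm]
  · have h' : x * y ∉ S := fun h' => h (hS x y h')
    simp [Set.indicator_of_notMem h, Set.indicator_of_notMem h']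

/-- Odd powers of a difference of two idempotents have the trace of the difference. -/
theorem trace_idem_sub_pow {A : Type*} [Ring A] (T : A → ℂ)
    (hsub : ∀ a b, T (a - b) = T a - T b) (hT : ∀ a b, T (a * b) = T (b * a)) {e f : A}
    (he : e * e = e) (hf : f * f = f) (k : ℕ) :
    T ((e - f) ^ (2 * k + 1)) = T (e - f) := by
  have he' : ∀ z : A, e * (e * z) = e * z := fun z => by rw [← mul_assoc, he]
  have hf' : ∀ z : A, f * (f * z) = f * z := fun z => by rw [← mul_assoc, hf]
  set y := (e - f) * (e - f) with hy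
  have hy1 : e * y = e - e * f * e := by
    simp only [hy, mul_sub, sub_mul, mul_assoc, he, hf, he']
    abel
  have hy2 : y * e = e - e * f * e := by
    simp only [hy, mul_sub, sub_mul, mul_assoc, he, hf]
    abel
  have hy3 : f * y = f - f * e * f := by
    simp only [hy, mul_sub, sub_mul, mul_assoc, he, hf, hf']
    abel
  have hy4 : y * f = f - f * e * f := by
    simp only [hy, mul_sub, sub_mul, mul_assoc, he, hf]
    abel
  induction k with
  | zero => simp
  | succ k ih =>
      have hpow : (e - f) ^ (2 * (k + 1) + 1) = (e - f) * (y * y ^ k) := by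
        rw [← pow_succ', hy, ← pow_two, ← pow_mul, ← pow_succ']
      have hpow0 : (e - f) ^ (2 * k + 1) = (e - f) * y ^ k := by
        rw [hy, ← pow_two, ← pow_mul, ← pow_succ']
      have ce : Commute e (y ^ k) := Commute.pow_right (hy1.trans hy2.symm) k
      have cf : Commute f (y ^ k) := Commute.pow_right (hy3.trans hy4.symm) k
      have key : T (e * f * e * y ^ k) = T (f * e * f * y ^ k) := by
        have h1 : T (e * f * e * y ^ k) = T (f * e * y ^ k) := by
          rw [mul_assoc, mul_assoc, hT, mul_assoc f (e * y ^ k) e, mul_assoc e, ← ce.eq, he',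
            mul_assoc]
        have h2 : T (f * e * f * y ^ k) = T (e * f * y ^ k) := by
          rw [mul_assoc, mul_assoc, hT, mul_assoc e (f * y ^ k) f, mul_assoc f, ← cf.eq, hf',
            mul_assoc]
        have h3 : T (e * f * y ^ k) = T (f * e * y ^ k) := by
          rw [mul_assoc, hT, mul_assoc f (y ^ k) e, ← ce.eq, mul_assoc]
        rw [h1, h2, h3]
      rw [← ih, hpow, hpow0, sub_mul, sub_mul, hsub, hsub, ← mul_assoc e y, ← mul_assoc f y,
        hy1, hy3, sub_mul, sub_mul, hsub, hsub, key]
      ring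

include hbd hcomm in
theorem classTrace_eq_of_close {S : Set G} (hS : ∀ x y : G, x * y ∈ S → y * x ∈ S)
    {e f : L1 G R} (he : e * e = e) (hf : f * f = f) (hclose : l1norm (e - f) < 1) :
    classTrace tr S e = classTrace tr S f := by
  have hk : ∀ k : ℕ, ‖classTrace tr S (e - f)‖ ≤ |c| * l1norm (e - f) ^ (2 * k + 1) := by
    intro k
    rw [← trace_idem_sub_pow (classTrace tr S) (classTrace_sub tr c hbd S)
      (classTrace_comm tr c hbd hcomm hS) he hf k]
    refine (norm_classTrace_le tr c hbd S _).trans ?_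
    exact mul_le_mul (le_abs_self c) (l1norm_pow_le _ _) (l1norm_nonneg _) (abs_nonneg c)
  have h0 : Filter.Tendsto (fun k : ℕ => |c| * l1norm (e - f) ^ (2 * k + 1))
      Filter.atTop (nhds 0) := by
    have h := (tendsto_pow_atTop_nhds_zero_of_lt_one (l1norm_nonneg (e - f)) hclose).comp
      (Filter.tendsto_atTop_mono (fun k => by simp only [id]; omega) Filter.tendsto_id :
        Filter.Tendsto (fun k : ℕ => 2 * k + 1) Filter.atTop Filter.atTop)
    simpa using h.const_mul |c|
  have hz : ‖classTrace tr S (e - f)‖ ≤ 0 := ge_of_tendsto' h0 hk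
  rwa [norm_le_zero_iff, classTrace_sub tr c hbd, sub_eq_zero] at hz

end Vale.Agent.P184
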