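import Mathlib
import Vale.Agent.P184.L1

/-!
First moments of elements of `ℓ¹(G, R)` with respect to a length function, and the fact that
every idempotent lies within distance less than one of an idempotent of finite first moment.
-/

namespace Vale.Agent.P184

set_option linter.unusedSectionVars false

variable {G : Type*} [Group G] {R : Type*} [NormedRing R] [CompleteSpace R]

theorem l1norm_add_le (a b : L1 G R) : l1norm (a + b) ≤ l1norm a + l1norm b := by
  unfold l1norm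
  rw [← a.2.tsum_add b.2]
  exact (a + b).2.tsum_le_tsum (fun g => norm_add_le _ _) (a.2.add b.2)

theorem l1norm_neg (a : L1 G R) : l1norm (-a) = l1norm a := by
  simp [l1norm]

theorem l1norm_sub_le (a b : L1 G R) : l1norm (a - b) ≤ l1norm a + l1norm b := by
  rw [sub_eq_add_neg]
  simpa [l1norm_neg] using l1norm_add_le a (-b)

theorem eq_zero_of_l1norm_le_zero (a : L1 G R) (h : l1norm a ≤ 0) : a = 0 := by
  apply Subtype.ext
  funext g
  have h1 := (a.2.le_tsum g fun x _ => norm_nonneg _).trans h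
  simpa using norm_le_zero_iff.1 h1

theorem norm_apply_le_l1norm (a : L1 G R) (g : G) : ‖a.1 g‖ ≤ l1norm a :=
  a.2.le_tsum g fun _ _ => norm_nonneg _

variable (L : G → ℝ)

/-- The element has a finite first moment. -/
def HasMom (a : L1 G R) : Prop := Summable fun g => L g * ‖a.1 g‖

/-- The first moment. -/
noncomputable def mom (a : L1 G R) : ℝ := ∑' g, L g * ‖a.1 g‖

variable {L} (hL0 : ∀ g, 0 ≤ L g) (hL : ∀ x y, L (x * y) ≤ L x + L y)

include hL0 in
theorem mom_nonneg (a : L1 G R) : 0 ≤ mom L a :=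
  tsum_nonneg fun g => mul_nonneg (hL0 g) (norm_nonneg _)

include hL0 in
theorem hasMom_add {a b : L1 G R} (ha : HasMom L a) (hb : HasMom L b) :
    HasMom L (a + b) ∧ mom L (a + b) ≤ mom L a + mom L b := by
  have hle : ∀ g, L g * ‖(a + b).1 g‖ ≤ L g * ‖a.1 g‖ + L g * ‖b.1 g‖ := fun g => by
    rw [← mul_add]; exact mul_le_mul_of_nonneg_left (norm_add_le _ _) (hL0 g)
  have hs : HasMom L (a + b) :=
    Summable.of_nonneg_of_le (fun g => mul_nonneg (hL0 g) (norm_nonneg _)) hle (ha.add hb)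
  refine ⟨hs, ?_⟩
  unfold mom
  rw [← ha.tsum_add hb]
  exact hs.tsum_le_tsum hle (ha.add hb)

theorem hasMom_neg {a : L1 G R} (ha : HasMom L a) : HasMom L (-a) ∧ mom L (-a) = mom L a := by
  constructor
  · simpa [HasMom] using ha
  · simp [mom]

include hL0 in
theorem hasMom_sub {a b : L1 G R} (ha : HasMom L a) (hb : HasMom L b) :
    HasMom L (a - b) ∧ mom L (a - b) ≤ mom L a + mom L b := by
  rw [sub_eq_add_neg, ← (hasMom_neg hb).2]
  exact hasMom_add hL0 ha (hasMom_neg hb).1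

include hL0 hL in
theorem hasMom_mul {a b : L1 G R} (ha : HasMom L a) (hb : HasMom L b) :
    HasMom L (a * b) ∧ mom L (a * b) ≤ mom L a * l1norm b + l1norm a * mom L b := by
  have hn : ∀ (f : L1 G R) (g : G), 0 ≤ L g * ‖f.1 g‖ := fun f g =>
    mul_nonneg (hL0 g) (norm_nonneg _)
  have h1 : Summable fun p : G × G => (L p.1 * ‖a.1 p.1‖) * ‖b.1 p.2‖ :=
    Summable.mul_of_nonneg (f := fun g => L g * ‖a.1 g‖) (g := fun g => ‖b.1 g‖) ha b.2
      (hn a) fun g => norm_nonneg _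
  have h2 : Summable fun p : G × G => ‖a.1 p.1‖ * (L p.2 * ‖b.1 p.2‖) :=
    Summable.mul_of_nonneg (f := fun g => ‖a.1 g‖) (g := fun g => L g * ‖b.1 g‖) a.2 hb
      (fun g => norm_nonneg _) (hn b)
  let P : G × G → ℝ := fun p =>
    (L p.1 * ‖a.1 p.1‖) * ‖b.1 p.2‖ + ‖a.1 p.1‖ * (L p.2 * ‖b.1 p.2‖)
  have hP : Summable P := h1.add h2
  let σ : G × G ≃ G × G := (Equiv.prodComm G G).trans (shear G)
  have hσ : Summable fun q => P (σ q) := hP.comp_injective (i := σ) σ.injective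
  have hpair := (summable_conv_pair a.2 b.2).prod_symm
  have hle : ∀ g, L g * ‖(a * b).1 g‖ ≤ ∑' x, P (σ (g, x)) := by
    intro g
    rw [L1.mul_apply]
    refine le_trans (mul_le_mul_of_nonneg_left
      (norm_tsum_le_tsum_norm (hpair.prod_factor g)) (hL0 g)) ?_
    rw [← tsum_mul_left]
    refine Summable.tsum_le_tsum (fun x => ?_) ((hpair.prod_factor g).mul_left _)
      (hσ.prod_factor g)
    have h3 : L g ≤ L x + L (x⁻¹ * g) := by simpa using hL x (x⁻¹ * g)
    calc L g * ‖a.1 x * b.1 (x⁻¹ * g)‖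
        ≤ (L x + L (x⁻¹ * g)) * (‖a.1 x‖ * ‖b.1 (x⁻¹ * g)‖) :=
          mul_le_mul h3 (norm_mul_le _ _) (norm_nonneg _) (add_nonneg (hL0 _) (hL0 _))
      _ = P (σ (g, x)) := by simp [P, σ, shear]; ring
  have hs : HasMom L (a * b) := Summable.of_nonneg_of_le (hn _) hle hσ.prod
  refine ⟨hs, ?_⟩
  calc mom L (a * b) ≤ ∑' g, ∑' x, P (σ (g, x)) := hs.tsum_le_tsum hle hσ.prod
    _ = ∑' p, P p := by rw [← hσ.tsum_prod]; exact σ.tsum_eq P
    _ = (∑' p : G × G, (L p.1 * ‖a.1 p.1‖) * ‖b.1 p.2‖)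
        + ∑' p : G × G, ‖a.1 p.1‖ * (L p.2 * ‖b.1 p.2‖) := h1.tsum_add h2
    _ = mom L a * l1norm b + l1norm a * mom L b := by
        rw [mom, mom, l1norm, l1norm, Summable.tsum_mul_tsum ha b.2 h1,
          Summable.tsum_mul_tsum a.2 hb h2]

theorem hasMom_one : HasMom L (1 : L1 G R) := by
  classical
  exact summable_of_ne_finset_zero (s := {1}) fun g hg => by simp_all [L1.one_apply]

/-- A finitely supported element close to a given one. -/
theorem exists_hasMom_approx (L : G → ℝ) (a : L1 G R) {δ : ℝ} (hδ : 0 < δ) :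
    ∃ b : L1 G R, HasMom L b ∧ l1norm (b - a) ≤ δ := by
  classical
  obtain ⟨s, hs⟩ := Filter.eventually_atTop.1
    ((tendsto_tsum_compl_atTop_zero fun g => ‖a.1 g‖).eventually_le_const hδ)
  refine ⟨⟨fun g => if g ∈ s then a.1 g else 0,
    summable_of_ne_finset_zero (s := s) fun g hg => by simp [hg]⟩,
    summable_of_ne_finset_zero (s := s) fun g hg => by simp [hg], ?_⟩
  refine le_trans (le_of_eq ?_) (hs s le_rfl)
  rw [l1norm, ← tsum_subtype_eq_of_support_subset (s := {g : G | g ∉ s})]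
  · refine tsum_congr fun g => ?_
    have hg : (g : G) ∉ s := g.2
    simp [hg]
  · intro g hg hmem
    simp [hmem] at hg

/-- The Newton step towards an idempotent. -/
noncomputable def newton (x : L1 G R) : L1 G R := x + (x * x - x) * (1 - x - x)

theorem newton_defect (x : L1 G R) :
    newton x * newton x - newton x =
      (x * x - x) * (x * x - x) * (x * x - x) + (x * x - x) * (x * x - x) * (x * x - x)
        + (x * x - x) * (x * x - x) * (x * x - x) + (x * x - x) * (x * x - x) * (x * x - x)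
        - (x * x - x) * (x * x - x) - (x * x - x) * (x * x - x) - (x * x - x) * (x * x - x) := by
  unfold newton
  noncomm_ring

include hL0 hL in
theorem defect_step {d : L1 G R} (hd : HasMom L d) (h1 : l1norm d ≤ 1 / 36) :
    HasMom L (d * d * d + d * d * d + d * d * d + d * d * d - d * d - d * d - d * d) ∧
    mom L (d * d * d + d * d * d + d * d * d + d * d * d - d * d - d * d - d * d) ≤ mom L d / 2 ∧
    l1norm (d * d * d + d * d * d + d * d * d + d * d * d - d * d - d * d - d * d) ≤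
      l1norm d / 2 := by
  have hn0 := l1norm_nonneg d
  have hm0 := mom_nonneg hL0 d
  obtain ⟨a2, b2⟩ := hasMom_mul hL0 hL hd hd
  obtain ⟨a3, b3⟩ := hasMom_mul hL0 hL a2 hd
  have n2 := l1norm_mul_le d d
  have n2' : l1norm (d * d) ≤ 1 / 36 * l1norm d :=
    n2.trans (mul_le_mul_of_nonneg_right h1 hn0)
  have n3 : l1norm (d * d * d) ≤ 1 / 36 * l1norm d :=
    (l1norm_mul_le _ _).trans ((mul_le_mul n2' h1 hn0 (by positivity)).trans (by nlinarith))
  have m2 : mom L (d * d) ≤ 1 / 18 * mom L d := by nlinarith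
  have m3 : mom L (d * d * d) ≤ 1 / 18 * mom L d := by
    have : l1norm (d * d) * mom L d ≤ 1 / 36 * (1 / 36) * mom L d :=
      mul_le_mul_of_nonneg_right (n2'.trans (mul_le_mul_of_nonneg_left h1 (by norm_num))) hm0
    nlinarith [mul_le_mul m2 h1 hn0 (by positivity : (0 : ℝ) ≤ 1 / 18 * mom L d)]
  obtain ⟨p1, q1⟩ := hasMom_add hL0 a3 a3
  obtain ⟨p2, q2⟩ := hasMom_add hL0 p1 a3
  obtain ⟨p3, q3⟩ := hasMom_add hL0 p2 a3
  obtain ⟨p4, q4⟩ := hasMom_sub hL0 p3 a2
  obtain ⟨p5, q5⟩ := hasMom_sub hL0 p4 a2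
  obtain ⟨p6, q6⟩ := hasMom_sub hL0 p5 a2
  refine ⟨p6, by linarith, ?_⟩
  linarith [l1norm_add_le (d * d * d) (d * d * d),
    l1norm_add_le (d * d * d + d * d * d) (d * d * d),
    l1norm_add_le (d * d * d + d * d * d + d * d * d) (d * d * d),
    l1norm_sub_le (d * d * d + d * d * d + d * d * d + d * d * d) (d * d),
    l1norm_sub_le (d * d * d + d * d * d + d * d * d + d * d * d - d * d) (d * d),
    l1norm_sub_le (d * d * d + d * d * d + d * d * d + d * d * d - d * d - d * d) (d * d)]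

/-- A finitely supported almost idempotent near an idempotent, with the constants of the
Newton iteration. -/
theorem exists_start (L : G → ℝ) (e : L1 G R) (he : e * e = e) :
    ∃ (x : L1 G R) (η K : ℝ), HasMom L x ∧ 0 < η ∧ η ≤ 1 / 36 ∧ η * K ≤ 1 / 8 ∧
      l1norm (x * x - x) ≤ η ∧ l1norm (x - e) ≤ 1 / 4 ∧
      l1norm (1 : L1 G R) + 2 * (l1norm x + 1) ≤ K := by
  set E := l1norm e with hE
  have hE0 : 0 ≤ E := l1norm_nonneg e
  set K := l1norm (1 : L1 G R) + 2 * (E + 2) with hK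
  have hK4 : 4 ≤ K := by linarith [l1norm_nonneg (1 : L1 G R)]
  set δ := 1 / (16 * (E + 1) * (K + 36)) with hδ
  have hδ0 : 0 < δ := by positivity
  obtain ⟨x, hx, hxe⟩ := exists_hasMom_approx L e hδ0
  have hδ4 : δ ≤ 1 / 4 := by
    rw [hδ, div_le_div_iff₀ (by positivity) (by norm_num)]
    nlinarith
  have hxn : l1norm x ≤ E + 1 := by
    have := l1norm_add_le (x - e) e
    rw [sub_add_cancel] at this
    linarith
  refine ⟨x, 1 / (8 * (K + 36)), K, hx, by positivity, ?_, ?_, ?_, hxe.trans hδ4, by linarith⟩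
  · rw [div_le_div_iff₀ (by positivity) (by norm_num)]
    linarith
  · rw [div_mul_eq_mul_div, div_le_div_iff₀ (by positivity) (by norm_num)]
    linarith
  · have h1 : x * x - x = (x - e) * x + e * (x - e) - (x - e) := by
      rw [sub_mul, mul_sub, he]
      abel
    rw [h1]
    have g1 : l1norm ((x - e) * x) ≤ δ * (E + 1) :=
      (l1norm_mul_le _ _).trans (mul_le_mul hxe hxn (l1norm_nonneg _) hδ0.le)
    have g2 : l1norm (e * (x - e)) ≤ E * δ :=
      (l1norm_mul_le _ _).trans (mul_le_mul_of_nonneg_left hxe hE0)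
    have g3 : δ * (E + 1) + E * δ + δ = 1 / (8 * (K + 36)) := by
      rw [hδ]; field_simp; ring
    linarith [l1norm_sub_le ((x - e) * x + e * (x - e)) (x - e),
      l1norm_add_le ((x - e) * x) (e * (x - e))]

/-- The Newton sequence. -/
noncomputable def seqN (x₀ : L1 G R) (n : ℕ) : L1 G R := newton^[n] x₀

/-- Its defects. -/
noncomputable def defN (x₀ : L1 G R) (n : ℕ) : L1 G R := seqN x₀ n * seqN x₀ n - seqN x₀ n

theorem seqN_succ (x₀ : L1 G R) (n : ℕ) :
    seqN x₀ (n + 1) = seqN x₀ n + defN x₀ n * (1 - seqN x₀ n - seqN x₀ n) := by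
  simp only [seqN, defN, Function.iterate_succ_apply']
  rfl

section Seq

variable {x₀ : L1 G R} {η K : ℝ}

include hL0 hL in
theorem hasMom_seqN (hx : HasMom L x₀) (n : ℕ) :
    HasMom L (seqN x₀ n) ∧ HasMom L (defN x₀ n) := by
  have h : ∀ y : L1 G R, HasMom L y → HasMom L (y * y - y) := fun y hy =>
    (hasMom_sub hL0 (hasMom_mul hL0 hL hy hy).1 hy).1
  induction n with
  | zero => exact ⟨hx, h _ hx⟩
  | succ n ih =>
    have h1 : HasMom L (seqN x₀ (n + 1)) := by
      rw [seqN_succ]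
      exact (hasMom_add hL0 ih.1 (hasMom_mul hL0 hL ih.2
        (hasMom_sub hL0 (hasMom_sub hL0 hasMom_one ih.1).1 ih.1).1).1).1
    exact ⟨h1, h _ h1⟩

include hL0 hL in
theorem defN_decay (hx : HasMom L x₀) (hη0 : 0 < η) (hη : η ≤ 1 / 36)
    (hd : l1norm (x₀ * x₀ - x₀) ≤ η) (n : ℕ) :
    l1norm (defN x₀ n) ≤ η * (1 / 2) ^ n ∧
      mom L (defN x₀ n) ≤ mom L (defN x₀ 0) * (1 / 2) ^ n := by
  induction n with
  | zero => simpa [defN, seqN] using hd
  | succ n ih =>
    have h36 : l1norm (defN x₀ n) ≤ 1 / 36 :=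
      ih.1.trans ((mul_le_of_le_one_right hη0.le (pow_le_one₀ (by norm_num) (by norm_num))).trans hη)
    obtain ⟨-, hm, hl⟩ := defect_step hL0 hL (hasMom_seqN hL0 hL hx n).2 h36
    have e1 : defN x₀ (n + 1) = defN x₀ n * defN x₀ n * defN x₀ n + defN x₀ n * defN x₀ n * defN x₀ n
        + defN x₀ n * defN x₀ n * defN x₀ n + defN x₀ n * defN x₀ n * defN x₀ n
        - defN x₀ n * defN x₀ n - defN x₀ n * defN x₀ n - defN x₀ n * defN x₀ n := by
      simp only [defN, seqN, Function.iterate_succ_apply']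
      exact newton_defect _
    rw [← e1] at hm hl
    rw [pow_succ]
    exact ⟨by linarith [ih.1], by linarith [ih.2]⟩

theorem seqN_bound (hη0 : 0 < η) (hηK : η * K ≤ 1 / 8)
    (hK : l1norm (1 : L1 G R) + 2 * (l1norm x₀ + 1) ≤ K)
    (hdec : ∀ n, l1norm (defN x₀ n) ≤ η * (1 / 2) ^ n) (n : ℕ) :
    l1norm (seqN x₀ n - x₀) ≤ 2 * η * K * (1 - (1 / 2) ^ n) ∧
      l1norm (1 - seqN x₀ n - seqN x₀ n) ≤ K := by
  have hK0 : 0 ≤ K := by linarith [l1norm_nonneg (1 : L1 G R), l1norm_nonneg x₀]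
  have key : ∀ n, l1norm (seqN x₀ n - x₀) ≤ 2 * η * K * (1 - (1 / 2) ^ n) →
      l1norm (1 - seqN x₀ n - seqN x₀ n) ≤ K := fun n h => by
    have h1 := l1norm_add_le (seqN x₀ n - x₀) x₀
    rw [sub_add_cancel] at h1
    have h2 : 2 * η * K * (1 - (1 / 2) ^ n) ≤ 1 :=
      (mul_le_of_le_one_right (by positivity) (sub_le_self _ (by positivity))).trans (by linarith)
    linarith [l1norm_sub_le ((1 : L1 G R) - seqN x₀ n) (seqN x₀ n),
      l1norm_sub_le (1 : L1 G R) (seqN x₀ n)]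
  induction n with
  | zero => exact ⟨by simp [seqN, l1norm], key 0 (by simp [seqN, l1norm])⟩
  | succ n ih =>
    have h : l1norm (seqN x₀ (n + 1) - x₀) ≤ 2 * η * K * (1 - (1 / 2) ^ (n + 1)) := by
      calc l1norm (seqN x₀ (n + 1) - x₀)
          = l1norm ((seqN x₀ n - x₀) + defN x₀ n * (1 - seqN x₀ n - seqN x₀ n)) := by
            rw [seqN_succ]; congr 1; abel
        _ ≤ 2 * η * K * (1 - (1 / 2) ^ n) + η * (1 / 2) ^ n * K :=
            (l1norm_add_le _ _).trans (add_le_add ih.1 ((l1norm_mul_le _ _).trans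
              (mul_le_mul (hdec n) ih.2 (l1norm_nonneg _) (by positivity))))
        _ = _ := by rw [pow_succ]; ring
    exact ⟨h, key _ h⟩

include hL0 hL in
theorem seqN_mom_bound (hx : HasMom L x₀) (hη0 : 0 < η) (hη : η ≤ 1 / 36) (hK0 : 0 ≤ K)
    (hdec : ∀ n, l1norm (defN x₀ n) ≤ η * (1 / 2) ^ n)
    (hdm : ∀ n, mom L (defN x₀ n) ≤ mom L (defN x₀ 0) * (1 / 2) ^ n)
    (hy : ∀ n, l1norm (1 - seqN x₀ n - seqN x₀ n) ≤ K) :
    ∃ B, ∀ n, mom L (seqN x₀ n) ≤ B := by
  set M0 := mom L (defN x₀ 0) with hM0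
  set u1 := mom L (1 : L1 G R) with hu1
  set B := mom L x₀ + 4 * (M0 * K + η * u1) with hB
  have hM00 : 0 ≤ M0 := mom_nonneg hL0 _
  have hu10 : 0 ≤ u1 := mom_nonneg hL0 _
  have hx00 : 0 ≤ mom L x₀ := mom_nonneg hL0 _
  have hB0 : 0 ≤ B := by positivity
  suffices h : ∀ n, mom L (seqN x₀ n) ≤ B * (2 - (1 / 2) ^ n) by
    exact ⟨B * 2, fun n => (h n).trans (mul_le_mul_of_nonneg_left
      (sub_le_self _ (by positivity)) hB0)⟩
  intro n
  induction n with
  | zero =>
    have h1 : 0 ≤ M0 * K + η * u1 := by positivity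
    norm_num [seqN]
    linarith
  | succ n ih =>
    have hp : (0 : ℝ) ≤ (1 / 2) ^ n := by positivity
    have hxn := (hasMom_seqN hL0 hL hx n).1
    obtain ⟨a1, b1⟩ := hasMom_sub hL0 (hasMom_one (L := L) (G := G) (R := R)) hxn
    obtain ⟨a2, b2⟩ := hasMom_sub hL0 a1 hxn
    obtain ⟨a3, b3⟩ := hasMom_mul hL0 hL (hasMom_seqN hL0 hL hx n).2 a2
    have b4 := (hasMom_add hL0 hxn a3).2
    rw [← seqN_succ] at b4
    have hB2 : B * (2 - (1 / 2) ^ n) ≤ B * 2 :=
      mul_le_mul_of_nonneg_left (sub_le_self _ hp) hB0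
    have c1 : mom L (defN x₀ n) * l1norm (1 - seqN x₀ n - seqN x₀ n) ≤ M0 * (1 / 2) ^ n * K :=
      mul_le_mul (hdm n) (hy n) (l1norm_nonneg _) (by positivity)
    have c2 : l1norm (defN x₀ n) * mom L (1 - seqN x₀ n - seqN x₀ n) ≤
        η * (1 / 2) ^ n * (u1 + 4 * B) :=
      mul_le_mul (hdec n) (by linarith) (mom_nonneg hL0 _) (by positivity)
    have c3 : η * (1 / 2) ^ n * B ≤ 1 / 36 * (1 / 2) ^ n * B := by gcongr
    have c4 : M0 * (1 / 2) ^ n * K + η * (1 / 2) ^ n * u1 ≤ B / 4 * (1 / 2) ^ n := by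
      have : M0 * K + η * u1 ≤ B / 4 := by linarith
      calc _ = (M0 * K + η * u1) * (1 / 2) ^ n := by ring
        _ ≤ _ := mul_le_mul_of_nonneg_right this hp
    have c5 : (0 : ℝ) ≤ (1 / 2) ^ n * B := by positivity
    rw [pow_succ]
    linarith

end Seq

include hL0 hL in
/-- Every idempotent is at distance less than one from an idempotent of finite first moment. -/
theorem exists_moment_idem (e : L1 G R) (he : e * e = e) :
    ∃ f : L1 G R, f * f = f ∧ HasMom L f ∧ l1norm (f - e) < 1 := by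
  obtain ⟨x₀, η, K, hx, hη0, hη, hηK, hd, hxe, hK⟩ := exists_start L e he
  have hK0 : 0 ≤ K := by linarith [l1norm_nonneg (1 : L1 G R), l1norm_nonneg x₀]
  have hD := defN_decay hL0 hL hx hη0 hη hd
  have hN := seqN_bound hη0 hηK hK fun n => (hD n).1
  obtain ⟨B, hB⟩ := seqN_mom_bound hL0 hL hx hη0 hη hK0 (fun n => (hD n).1) (fun n => (hD n).2)
    fun n => (hN n).2
  have hstep : ∀ n, l1norm (seqN x₀ (n + 1) - seqN x₀ n) ≤ η * K * (1 / 2) ^ n := fun n => by
    rw [seqN_succ, add_sub_cancel_left]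
    exact (l1norm_mul_le _ _).trans
      ((mul_le_mul (hD n).1 (hN n).2 (l1norm_nonneg _) (by positivity)).trans_eq (by ring))
  have hcau : ∀ n m, l1norm (seqN x₀ (n + m) - seqN x₀ n) ≤
      2 * η * K * (1 / 2) ^ n * (1 - (1 / 2) ^ m) := by
    intro n m
    induction m with
    | zero => simp [l1norm]
    | succ m ih =>
      calc l1norm (seqN x₀ (n + (m + 1)) - seqN x₀ n)
          = l1norm ((seqN x₀ (n + m + 1) - seqN x₀ (n + m)) + (seqN x₀ (n + m) - seqN x₀ n)) := by
            rw [sub_add_sub_cancel]; rfl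
        _ ≤ η * K * (1 / 2) ^ (n + m) + 2 * η * K * (1 / 2) ^ n * (1 - (1 / 2) ^ m) :=
            (l1norm_add_le _ _).trans (add_le_add (hstep _) ih)
        _ = _ := by rw [pow_add, pow_succ]; ring
  have hc : ∀ g, CauchySeq fun n => (seqN x₀ n).1 g := fun g => by
    refine cauchySeq_of_le_geometric (1 / 2) (η * K) (by norm_num) fun n => ?_
    rw [dist_eq_norm_sub']
    exact (norm_apply_le_l1norm (seqN x₀ (n + 1) - seqN x₀ n) g).trans (hstep n)
  choose F hF using fun g => cauchySeq_tendsto_of_complete (hc g)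
  have hfd : ∀ n (s : Finset G), ∑ g ∈ s, ‖F g - (seqN x₀ n).1 g‖ ≤
      2 * η * K * (1 / 2) ^ n := by
    intro n s
    refine le_of_tendsto (x := Filter.atTop)
      (f := fun m => ∑ g ∈ s, ‖(seqN x₀ m).1 g - (seqN x₀ n).1 g‖)
      (tendsto_finsetSum _ fun g _ => ((hF g).sub_const _).norm) ?_
    refine Filter.eventually_atTop.2 ⟨n, fun m hm => ?_⟩
    obtain ⟨k, rfl⟩ := Nat.exists_eq_add_of_le hm
    exact ((Summable.sum_le_tsum s (fun g _ => norm_nonneg _)
      (seqN x₀ (n + k) - seqN x₀ n).2).trans (hcau n k)).trans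
      (mul_le_of_le_one_right (by positivity) (sub_le_self _ (by positivity)))
  have hFs : Summable fun g => ‖F g - (seqN x₀ 0).1 g‖ :=
    summable_of_sum_le (fun g => norm_nonneg _) (hfd 0)
  set f : L1 G R := ⟨fun g => F g,
    (hFs.add (seqN x₀ 0).2).of_nonneg_of_le (fun g => norm_nonneg _)
      fun g => norm_le_norm_sub_add _ _⟩ with hf
  have hfn : ∀ n, l1norm (f - seqN x₀ n) ≤ 2 * η * K * (1 / 2) ^ n := fun n =>
    Summable.tsum_le_of_sum_le (f - seqN x₀ n).2 (hfd n)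
  refine ⟨f, ?_, ?_, ?_⟩
  · rw [← sub_eq_zero]
    refine eq_zero_of_l1norm_le_zero _ (ge_of_tendsto' (x := Filter.atTop) (f := fun n : ℕ =>
      (l1norm f + (K + 1)) * (2 * η * K * (1 / 2) ^ n) + η * (1 / 2) ^ n) ?_ fun n => ?_)
    · have h := (tendsto_pow_atTop_nhds_zero_of_lt_one (r := (1 / 2 : ℝ)) (by norm_num)
        (by norm_num))
      simpa using ((h.const_mul (2 * η * K)).const_mul (l1norm f + (K + 1))).add (h.const_mul η)
    · have e1 : f * f - f = (f - seqN x₀ n) * f + seqN x₀ n * (f - seqN x₀ n) + defN x₀ n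
          - (f - seqN x₀ n) := by
        simp only [defN, sub_mul, mul_sub]
        abel
      rw [e1]
      have hxn : l1norm (seqN x₀ n) ≤ K := by
        have h1 := l1norm_add_le (seqN x₀ n - x₀) x₀
        rw [sub_add_cancel] at h1
        have h2 : 2 * η * K * (1 - (1 / 2) ^ n) ≤ 1 :=
          (mul_le_of_le_one_right (by positivity) (sub_le_self _ (by positivity))).trans
            (by linarith)
        linarith [(hN n).1, l1norm_nonneg (1 : L1 G R), l1norm_nonneg x₀]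
      have g1 : l1norm ((f - seqN x₀ n) * f) ≤ 2 * η * K * (1 / 2) ^ n * l1norm f :=
        (l1norm_mul_le _ _).trans (mul_le_mul_of_nonneg_right (hfn n) (l1norm_nonneg _))
      have g2 : l1norm (seqN x₀ n * (f - seqN x₀ n)) ≤ K * (2 * η * K * (1 / 2) ^ n) :=
        (l1norm_mul_le _ _).trans (mul_le_mul hxn (hfn n) (l1norm_nonneg _) hK0)
      linarith [l1norm_sub_le ((f - seqN x₀ n) * f + seqN x₀ n * (f - seqN x₀ n) + defN x₀ n)
          (f - seqN x₀ n),
        l1norm_add_le ((f - seqN x₀ n) * f + seqN x₀ n * (f - seqN x₀ n)) (defN x₀ n),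
        l1norm_add_le ((f - seqN x₀ n) * f) (seqN x₀ n * (f - seqN x₀ n)), hfn n, (hD n).1]
  · refine summable_of_sum_le (c := B) (fun g => mul_nonneg (hL0 g) (norm_nonneg _)) fun s => ?_
    refine le_of_tendsto' (x := Filter.atTop) (f := fun n => ∑ g ∈ s, L g * ‖(seqN x₀ n).1 g‖)
      (tendsto_finsetSum _ fun g _ => ((hF g).norm).const_mul _) fun n => ?_
    exact (Summable.sum_le_tsum s (fun g _ => mul_nonneg (hL0 g) (norm_nonneg _))
      (hasMom_seqN hL0 hL hx n).1).trans (hB n)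
  · have h := l1norm_add_le (f - seqN x₀ 0) (x₀ - e)
    rw [show (f - seqN x₀ 0) + (x₀ - e) = f - e by simp [seqN]] at h
    have h0 := hfn 0
    simp only [pow_zero, mul_one] at h0
    linarith

end Vale.Agent.P184
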