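import Mathlib
import Vale.Agent.P184.Moment

/-!
A bilinear pairing built from a real groupoid cocycle on a conjugacy class. It forces the class
trace of an idempotent of finite first moment to vanish.
-/

namespace Vale.Agent.P184

set_option linter.unusedSectionVars false

variable {G : Type*} [Group G] {R : Type*} [NormedRing R] [CompleteSpace R]

/-- `((g, z), x) ↦ (x, (x⁻¹ g, z))`. -/
def splitFst (G : Type*) [Group G] : (G × G) × G ≃ G × (G × G) where
  toFun q := (q.2, (q.2⁻¹ * q.1.1, q.1.2))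
  invFun t := ((t.1 * t.2.1, t.2.2), t.1)
  left_inv q := by simp
  right_inv t := by simp

/-- `((x, w), y) ↦ (x, (y, y⁻¹ w))`. -/
def splitSnd (G : Type*) [Group G] : (G × G) × G ≃ G × (G × G) where
  toFun q := (q.1.1, (q.2, q.2⁻¹ * q.1.2))
  invFun t := ((t.1, t.2.1 * t.2.2), t.2.1)
  left_inv q := by simp
  right_inv t := by simp

/-- `(x, (y, z)) ↦ (y, (z, x))`. -/
def rot3 (G : Type*) : G × (G × G) ≃ G × (G × G) where
  toFun t := (t.2.1, (t.2.2, t.1))
  invFun t := (t.2.2, (t.1, t.2.1))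
  left_inv t := by simp
  right_inv t := by simp

variable (tr : R →+ ℂ) (c : ℝ) (hbd : ∀ x, ‖tr x‖ ≤ c * ‖x‖)
  (hcomm : ∀ x y, tr (x * y) = tr (y * x))

include hbd in
theorem norm_weighted_tr_le {S : Set G} (φ : ℝ) (v : R) (g : G) {B : ℝ} (hφ : |φ| ≤ B) :
    ‖S.indicator (fun _ => (φ : ℂ) * tr v) g‖ ≤ B * (|c| * ‖v‖) := by
  refine (norm_indicator_le_norm_self (fun _ : G => (φ : ℂ) * tr v) g).trans ?_
  rw [norm_mul, Complex.norm_real, Real.norm_eq_abs]
  exact mul_le_mul hφ ((hbd v).trans (mul_le_mul_of_nonneg_right (le_abs_self c) (norm_nonneg _)))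
    (norm_nonneg _) ((abs_nonneg _).trans hφ)

include hbd hcomm in
theorem classTrace_eq_zero_of_cocycle {S : Set G} (hS : ∀ x y : G, x * y ∈ S → y * x ∈ S)
    {L : G → ℝ} (hL0 : ∀ g, 0 ≤ L g) (hL : ∀ x y, L (x * y) ≤ L x + L y)
    (Φ : G → G → ℝ) (r : ℝ) (hr : r ≠ 0) (hΦ : ∀ x y, |Φ x y| ≤ L x)
    (hsum : ∀ x y, x * y ∈ S → Φ x y + Φ y x = r)
    (hcoc : ∀ x y z, x * y * z ∈ S → Φ (x * y) z = Φ x (y * z) + Φ y (z * x))
    (f : L1 G R) (hf : f * f = f) (hm : HasMom L f) : classTrace tr S f = 0 := by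
  classical
  have hcont : Continuous tr := AddMonoidHomClass.continuous_of_bound tr c hbd
  let w : G → ℝ := fun g => L g * ‖f.1 g‖
  let n : G → ℝ := fun g => ‖f.1 g‖
  have hw : ∀ g, 0 ≤ w g := fun g => mul_nonneg (hL0 g) (norm_nonneg _)
  have hn : ∀ g, 0 ≤ n g := fun g => norm_nonneg _
  have hwn : Summable fun p : G × G => w p.1 * n p.2 :=
    Summable.mul_of_nonneg (f := w) (g := n) hm f.2 hw hn
  have hnn : Summable fun p : G × G => n p.1 * n p.2 :=
    Summable.mul_of_nonneg (f := n) (g := n) f.2 f.2 hn hn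
  have hd1 : Summable fun t : G × (G × G) => w t.1 * (n t.2.1 * n t.2.2) :=
    Summable.mul_of_nonneg (f := w) (g := fun p : G × G => n p.1 * n p.2) hm hnn hw
      fun p => mul_nonneg (hn _) (hn _)
  have hd2 : Summable fun t : G × (G × G) => n t.1 * (w t.2.1 * n t.2.2) :=
    Summable.mul_of_nonneg (f := n) (g := fun p : G × G => w p.1 * n p.2) f.2 hwn hn
      fun p => mul_nonneg (hw _) (hn _)
  let K : G × G → ℂ := fun p =>
    S.indicator (fun _ => (Φ p.1 p.2 : ℂ) * tr (f.1 p.1 * f.1 p.2)) (p.1 * p.2)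
  let A : G × (G × G) → ℂ := fun t => S.indicator
    (fun _ => (Φ (t.1 * t.2.1) t.2.2 : ℂ) * tr (f.1 t.1 * f.1 t.2.1 * f.1 t.2.2))
    (t.1 * t.2.1 * t.2.2)
  let B : G × (G × G) → ℂ := fun t => S.indicator
    (fun _ => (Φ t.1 (t.2.1 * t.2.2) : ℂ) * tr (f.1 t.1 * f.1 t.2.1 * f.1 t.2.2))
    (t.1 * t.2.1 * t.2.2)
  have hK : Summable K := Summable.of_norm_bounded (hwn.mul_left |c|) fun p => by
    refine (norm_weighted_tr_le tr c hbd _ _ _ (hΦ _ _)).trans ?_
    calc L p.1 * (|c| * ‖f.1 p.1 * f.1 p.2‖) ≤ L p.1 * (|c| * (n p.1 * n p.2)) := by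
          gcongr
          · exact hL0 _
          · exact norm_mul_le _ _
      _ = |c| * (w p.1 * n p.2) := by simp [w, n]; ring
  have hv : ∀ t : G × (G × G),
      ‖f.1 t.1 * f.1 t.2.1 * f.1 t.2.2‖ ≤ n t.1 * (n t.2.1 * n t.2.2) := fun t => by
    rw [← mul_assoc]
    exact (norm_mul_le _ _).trans (mul_le_mul_of_nonneg_right (norm_mul_le _ _) (hn _))
  have hA : Summable A := Summable.of_norm_bounded ((hd1.add hd2).mul_left |c|) fun t => by
    refine (norm_weighted_tr_le tr c hbd _ _ _ ((hΦ _ _).trans (hL _ _))).trans ?_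
    calc (L t.1 + L t.2.1) * (|c| * ‖f.1 t.1 * f.1 t.2.1 * f.1 t.2.2‖)
        ≤ (L t.1 + L t.2.1) * (|c| * (n t.1 * (n t.2.1 * n t.2.2))) := by
          gcongr
          · exact add_nonneg (hL0 _) (hL0 _)
          · exact hv t
      _ = |c| * (w t.1 * (n t.2.1 * n t.2.2) + n t.1 * (w t.2.1 * n t.2.2)) := by
          simp [w, n]; ring
  have hB : Summable B := Summable.of_norm_bounded (hd1.mul_left |c|) fun t => by
    refine (norm_weighted_tr_le tr c hbd _ _ _ (hΦ _ _)).trans ?_
    calc L t.1 * (|c| * ‖f.1 t.1 * f.1 t.2.1 * f.1 t.2.2‖)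
        ≤ L t.1 * (|c| * (n t.1 * (n t.2.1 * n t.2.2))) := by
          gcongr
          · exact hL0 _
          · exact hv t
      _ = |c| * (w t.1 * (n t.2.1 * n t.2.2)) := by simp [w, n]; ring
  have hmul : ∀ g, f.1 g = ∑' x, f.1 x * f.1 (x⁻¹ * g) := fun g => by
    conv_lhs => rw [← hf]
    rfl
  have eA : ∑' p, K p = ∑' t, A t := by
    have h2 : Summable fun q => A (splitFst G q) :=
      hA.comp_injective (i := splitFst G) (splitFst G).injective
    rw [← (splitFst G).tsum_eq A, h2.tsum_prod]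
    refine tsum_congr fun p => ?_
    obtain ⟨g, z⟩ := p
    by_cases hg : g * z ∈ S
    · have hterm : ∀ x, A (splitFst G ((g, z), x)) =
          (Φ g z : ℂ) * tr (f.1 x * f.1 (x⁻¹ * g) * f.1 z) := fun x => by
        simp [A, splitFst, Set.indicator_of_mem hg]
      have hs := summable_conv_term f.2 f.2 g
      rw [tsum_congr hterm, tsum_mul_left, ← (hs.mul_right (f.1 z)).map_tsum tr hcont,
        hs.tsum_mul_right, ← hmul]
      simp [K, Set.indicator_of_mem hg]
    · simp [K, A, splitFst, Set.indicator_of_notMem hg]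
  have eB : ∑' p, K p = ∑' t, B t := by
    have h2 : Summable fun q => B (splitSnd G q) :=
      hB.comp_injective (i := splitSnd G) (splitSnd G).injective
    rw [← (splitSnd G).tsum_eq B, h2.tsum_prod]
    refine tsum_congr fun p => ?_
    obtain ⟨x, v⟩ := p
    by_cases hv : x * v ∈ S
    · have hterm : ∀ y, B (splitSnd G ((x, v), y)) =
          (Φ x v : ℂ) * tr (f.1 x * (f.1 y * f.1 (y⁻¹ * v))) := fun y => by
        simp [B, splitSnd, mul_assoc, Set.indicator_of_mem hv]
      have hs := summable_conv_term f.2 f.2 v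
      rw [tsum_congr hterm, tsum_mul_left, ← (hs.mul_left (f.1 x)).map_tsum tr hcont,
        hs.tsum_mul_left, ← hmul]
      simp [K, Set.indicator_of_mem hv]
    · simp [K, B, splitSnd, mul_assoc, Set.indicator_of_notMem hv]
  have hpt : ∀ t, A t = B t + B (rot3 G t) := by
    rintro ⟨x, y, z⟩
    by_cases h : x * y * z ∈ S
    · have h' : y * z * x ∈ S := hS x (y * z) (by rw [← mul_assoc]; exact h)
      have e : tr (f.1 y * f.1 z * f.1 x) = tr (f.1 x * f.1 y * f.1 z) := by
        rw [hcomm, mul_assoc]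
      simp [A, B, rot3, Set.indicator_of_mem h, Set.indicator_of_mem h', hcoc x y z h, e]
      ring
    · have h' : y * z * x ∉ S := fun h' => h (by
        have := hS (y * z) x h'
        rwa [← mul_assoc] at this)
      simp [A, B, rot3, Set.indicator_of_notMem h, Set.indicator_of_notMem h']
  have hBr : Summable fun t => B (rot3 G t) :=
    hB.comp_injective (i := rot3 G) (rot3 G).injective
  have hzero : ∑' p, K p = 0 := by
    have h1 : ∑' t, A t = ∑' t, B t + ∑' t, B (rot3 G t) := by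
      rw [tsum_congr hpt, hB.tsum_add hBr]
    rw [(rot3 G).tsum_eq B, ← eA, ← eB] at h1
    simpa using h1
  have hKs : Summable fun p : G × G => K (Equiv.prodComm G G p) :=
    hK.comp_injective (i := Equiv.prodComm G G) (Equiv.prodComm G G).injective
  have hsum2 : ∀ p : G × G, K p + K (Equiv.prodComm G G p) =
      (r : ℂ) * S.indicator (fun _ => tr (f.1 p.1 * f.1 p.2)) (p.1 * p.2) := by
    rintro ⟨x, y⟩
    by_cases h : x * y ∈ S
    · simp [K, Set.indicator_of_mem h, Set.indicator_of_mem (hS x y h), hcomm (f.1 y) (f.1 x),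
        ← hsum x y h]
      ring
    · have h' : y * x ∉ S := fun h' => h (hS y x h')
      simp [K, Set.indicator_of_notMem h, Set.indicator_of_notMem h']
  have h0 : (r : ℂ) * classTrace tr S (f * f) = 0 := by
    rw [classTrace_mul tr c hbd, ← tsum_mul_left, ← tsum_congr hsum2, hK.tsum_add hKs,
      (Equiv.prodComm G G).tsum_eq K, hzero, add_zero]
  rw [hf] at h0
  exact (mul_eq_zero.1 h0).resolve_left (by exact_mod_cast hr)

end Vale.Agent.P184
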