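import Mathlib

/-!
Idempotent matrices over the Banach group algebra `ℓ¹(G)` of a discrete group and the
coefficients of their Hattori-Stallings trace.
-/

namespace Vale.Agent.P184

/-- An idempotent `q × q` matrix over `ℓ¹(G)`: entries are absolutely summable functions
`G → ℂ`, and the matrix product, formed with convolution, returns the matrix itself. -/
structure IdemMatrix (G : Type*) [Group G] (q : ℕ) where
  entry : Fin q → Fin q → G → ℂ
  summable : ∀ i j, Summable fun g => ‖entry i j g‖
  idem : ∀ i k g, ∑ j, ∑' h, entry i j h * entry j k (h⁻¹ * g) = entry i k g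

/-- The Hattori-Stallings coefficient of `e` at the conjugacy class `C`. -/
noncomputable def tau {G : Type*} [Group G] {q : ℕ} (e : IdemMatrix G q) (C : ConjClasses G) : ℂ :=
  ∑' g : C.carrier, ∑ i, e.entry i i (g : G)

end Vale.Agent.P184
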