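import Mathlib
import Vale.Agent.P184.Defs
import Vale.Agent.P184.L1

/-!
Twisting an idempotent over `ℓ¹(G)` by a continuous family of bounded finite-dimensional
representations, and the resulting vanishing of Hattori-Stallings coefficients.
-/

namespace Vale.Agent.P184

open scoped Matrix.Norms.Operator Kronecker
open Matrix

section norms

variable {n : Type*} [Fintype n]

theorem norm_le_sum_entries (A : Matrix n n ℂ) : ‖A‖ ≤ ∑ i, ∑ j, ‖A i j‖ := by
  have h0 : ‖A‖₊ ≤ ∑ i, ∑ j, ‖A i j‖₊ := by
    rw [linfty_opNNNorm_def]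
    exact Finset.sup_le fun i hi =>
      Finset.single_le_sum (f := fun i => ∑ j, ‖A i j‖₊) (fun _ _ => zero_le) hi
  have h1 := NNReal.coe_le_coe.2 h0
  simpa [NNReal.coe_sum] using h1

theorem norm_entry_le (A : Matrix n n ℂ) (i j : n) : ‖A i j‖ ≤ ‖A‖ := by
  have h0 : ‖A i j‖₊ ≤ ‖A‖₊ := by
    rw [linfty_opNNNorm_def]
    exact le_trans (Finset.single_le_sum (f := fun j => ‖A i j‖₊) (fun _ _ => zero_le)
      (Finset.mem_univ j)) (Finset.le_sup (f := fun i => ∑ j, ‖A i j‖₊) (Finset.mem_univ i))
  exact_mod_cast h0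

theorem norm_trace_le (A : Matrix n n ℂ) : ‖A.trace‖ ≤ Fintype.card n * ‖A‖ := by
  refine (norm_sum_le _ _).trans ?_
  refine (Finset.sum_le_sum fun i _ => norm_entry_le A i i).trans ?_
  simp

end norms

variable {G : Type*} [Group G] {q : ℕ} {ι : Type*} [Fintype ι] [DecidableEq ι]

/-- The coefficient matrix of `e` at `g`. -/
def coeffMat (e : IdemMatrix G q) (g : G) : Matrix (Fin q) (Fin q) ℂ :=
  Matrix.of fun i j => e.entry i j g

/-- A uniform bound on the entries of a coefficient matrix. -/
noncomputable def coeffSize (e : IdemMatrix G q) (g : G) : ℝ := ∑ i, ∑ j, ‖e.entry i j g‖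

theorem summable_coeffSize (e : IdemMatrix G q) : Summable (coeffSize e) :=
  summable_sum fun i _ => summable_sum fun j _ => e.summable i j

theorem norm_kron_le (e : IdemMatrix G q) (g : G) (A : Matrix ι ι ℂ) {M : ℝ}
    (hM : ∀ a b, ‖A a b‖ ≤ M) :
    ‖coeffMat e g ⊗ₖ A‖ ≤ coeffSize e g * ((Fintype.card ι : ℝ) ^ 2 * M) := by
  refine (norm_le_sum_entries _).trans ?_
  simp only [Fintype.sum_prod_type, kronecker_apply, norm_mul, coeffMat, of_apply]
  calc ∑ i, ∑ a, ∑ j, ∑ b, ‖e.entry i j g‖ * ‖A a b‖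
      ≤ ∑ i, ∑ _a : ι, ∑ j, ∑ _b : ι, ‖e.entry i j g‖ * M := by
        gcongr with i _ a _ j _ b _
        exact hM a b
    _ = coeffSize e g * ((Fintype.card ι : ℝ) ^ 2 * M) := by
        simp only [coeffSize, Finset.sum_const, Finset.card_univ, nsmul_eq_mul, Finset.sum_mul,
          Finset.mul_sum]
        refine Finset.sum_congr rfl fun i _ => Finset.sum_congr rfl fun j _ => ?_
        ring

/-- The idempotent `∑ g, e(g) ⊗ π(g) g` over `ℓ¹(G, M_{q × ι})`. -/
noncomputable def twist (e : IdemMatrix G q) (π : G →* Matrix ι ι ℂ) (M : ℝ)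
    (hM : ∀ g a b, ‖π g a b‖ ≤ M) : L1 G (Matrix (Fin q × ι) (Fin q × ι) ℂ) :=
  ⟨fun g => coeffMat e g ⊗ₖ π g,
    Summable.of_nonneg_of_le (fun _ => norm_nonneg _) (fun g => norm_kron_le e g (π g) (hM g))
      ((summable_coeffSize e).mul_right ((Fintype.card ι : ℝ) ^ 2 * M))⟩

theorem twist_idem (e : IdemMatrix G q) (π : G →* Matrix ι ι ℂ) (M : ℝ)
    (hM : ∀ g a b, ‖π g a b‖ ≤ M) :
    twist e π M hM * twist e π M hM = twist e π M hM := by
  apply Subtype.ext
  funext g
  rw [L1.mul_apply]
  have hs := summable_conv_term (twist e π M hM).2 (twist e π M hM).2 g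
  ext ⟨i, a⟩ ⟨k, b⟩
  have happ := (hs.hasSum.map
    (Matrix.entryAddMonoidHom ℂ ((i, a) : Fin q × ι) ((k, b) : Fin q × ι))
    (continuous_id.matrix_elem _ _)).tsum_eq
  simp only [Function.comp_def, Matrix.entryAddMonoidHom_apply] at happ
  rw [← happ]
  have hterm : ∀ h, ((twist e π M hM).1 h * (twist e π M hM).1 (h⁻¹ * g)) (i, a) (k, b)
      = (∑ j, e.entry i j h * e.entry j k (h⁻¹ * g)) * π g a b := by
    intro h
    simp only [twist, ← mul_kronecker_mul, ← map_mul, mul_inv_cancel_left, kronecker_apply]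
    simp [Matrix.mul_apply, coeffMat]
  rw [tsum_congr hterm, tsum_mul_right]
  have hsum : ∀ j, Summable fun h => e.entry i j h * e.entry j k (h⁻¹ * g) := fun j =>
    summable_conv_term (e.summable i j) (e.summable j k) g
  rw [Summable.tsum_finsetSum fun j _ => hsum j, e.idem i k g]
  simp [twist, coeffMat]

/-- The trace functional used on the coefficient algebra. -/
noncomputable def trHom (n : Type*) [Fintype n] : Matrix n n ℂ →+ ℂ :=
  Matrix.traceAddMonoidHom n ℂ

theorem trHom_apply {n : Type*} [Fintype n] (A : Matrix n n ℂ) : trHom n A = A.trace := rfl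

omit [DecidableEq ι] [Fintype ι] in
theorem conj_closed (g : G) :
    ∀ x y : G, x * y ∈ (ConjClasses.mk g).carrier → y * x ∈ (ConjClasses.mk g).carrier := by
  intro x y h
  rw [ConjClasses.mem_carrier_iff_mk_eq] at h ⊢
  rw [← h, ConjClasses.mk_eq_mk_iff_isConj, isConj_iff]
  exact ⟨x, by simp [mul_assoc]⟩

theorem classTrace_twist (e : IdemMatrix G q) (π : G →* Matrix ι ι ℂ) (M : ℝ)
    (hM : ∀ g a b, ‖π g a b‖ ≤ M) (g : G) :
    classTrace (trHom (Fin q × ι)) (ConjClasses.mk g).carrier (twist e π M hM) =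
      (π g).trace * tau e (ConjClasses.mk g) := by
  unfold classTrace tau
  rw [← tsum_mul_left, ← tsum_subtype]
  refine tsum_congr fun x => ?_
  obtain ⟨x, hx⟩ := x
  rw [ConjClasses.mem_carrier_iff_mk_eq, eq_comm, ConjClasses.mk_eq_mk_iff_isConj,
    isConj_iff] at hx
  obtain ⟨c, rfl⟩ := hx
  have hπ : (π (c * g * c⁻¹)).trace = (π g).trace := by
    rw [map_mul, trace_mul_comm, ← map_mul, inv_mul_cancel_left]
  simp only [twist, trHom_apply, trace_kronecker, hπ]
  rw [mul_comm]
  rfl

/-- If two bounded finite-dimensional representations of `G` are joined by a pointwise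
continuous uniformly bounded path, then the trace of any idempotent vanishes at every class
where their characters differ. -/
theorem path_vanishing (e : IdemMatrix G q) (ρ : ℝ → (G →* Matrix ι ι ℂ)) (M : ℝ)
    (hM : ∀ t g a b, ‖ρ t g a b‖ ≤ M) (hρ : ∀ g, Continuous fun t => ρ t g) (g : G) :
    ((ρ 1 g).trace - (ρ 0 g).trace) * tau e (ConjClasses.mk g) = 0 := by
  let E : ℝ → L1 G (Matrix (Fin q × ι) (Fin q × ι) ℂ) := fun t => twist e (ρ t) M (hM t)
  let T : ℝ → ℂ := fun t =>
    classTrace (trHom (Fin q × ι)) (ConjClasses.mk g).carrier (E t)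
  have hloc : IsLocallyConstant T := by
    rw [IsLocallyConstant.iff_eventually_eq]
    intro t
    have hnorm : Continuous fun s => l1norm (E s - E t) := by
      unfold l1norm
      refine continuous_tsum (fun x => ?_)
        ((summable_coeffSize e).mul_right ((Fintype.card ι : ℝ) ^ 2 * (M + M))) (fun x s => ?_)
      · have hx : Continuous fun s => (E s - E t).1 x := by
          refine Continuous.sub ?_ continuous_const
          refine continuous_matrix fun i j => ?_
          exact (continuous_const (y := e.entry i.1 j.1 x)).mul ((hρ x).matrix_elem i.2 j.2)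
        exact hx.norm
      · rw [norm_norm]
        have : (E s - E t).1 x = coeffMat e x ⊗ₖ (ρ s x - ρ t x) := by
          ext ⟨i, a⟩ ⟨j, b⟩
          simp [E, twist, kronecker_apply, mul_sub]
        rw [this]
        exact norm_kron_le e x _ fun a b =>
          (norm_sub_le _ _).trans (add_le_add (hM s x a b) (hM t x a b))
    have h0 : l1norm (E t - E t) < 1 := by simp [l1norm]
    filter_upwards [hnorm.continuousAt.eventually_lt continuousAt_const h0] with s hs
    exact classTrace_eq_of_close (trHom (Fin q × ι)) _ (norm_trace_le (n := Fin q × ι))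
      (fun x y => trace_mul_comm x y) (conj_closed g) (twist_idem e (ρ s) M (hM s))
      (twist_idem e (ρ t) M (hM t)) hs
  have h := hloc.apply_eq_of_isPreconnected isPreconnected_univ (Set.mem_univ (1 : ℝ))
    (Set.mem_univ (0 : ℝ))
  simp only [T, E, classTrace_twist] at h
  rw [sub_mul, h, sub_self]

end Vale.Agent.P184
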