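import Mathlib
import Vale.Agent.P184.Cocycle
import Vale.Agent.P184.Twist

/-!
Vanishing of the Hattori-Stallings coefficient at the class of an element `h` whose centraliser
has a real character that is nonzero at `h` and bounded by a length function of the whole group.
-/

namespace Vale.Agent.P184

open scoped Matrix.Norms.Operator

variable {G : Type*} [Group G] {q : ℕ}

/-- A function on `G` equivariant for a character on a subgroup and Lipschitz for left
multiplication. -/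
theorem exists_potential (H : Subgroup G) (L φ : G → ℝ) (hL : ∀ x y, L (x * y) ≤ L x + L y)
    (hLinv : ∀ x, L x⁻¹ = L x)
    (hadd : ∀ z w, z ∈ H → w ∈ H → φ (z * w) = φ z + φ w)
    (hbnd : ∀ z, z ∈ H → |φ z| ≤ L z) :
    ∃ F : G → ℝ, (∀ x w, w ∈ H → F (x * w) = F x + φ w) ∧
      ∀ a x, |F (a * x) - F x| ≤ L a := by
  have hone : φ 1 = 0 := by
    have := hadd 1 1 H.one_mem H.one_mem
    rw [one_mul] at this
    linarith
  have hinv : ∀ z, z ∈ H → φ z⁻¹ = -φ z := fun z hz => by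
    have := hadd z z⁻¹ hz (H.inv_mem hz)
    rw [mul_inv_cancel, hone] at this
    linarith
  have hbdd : ∀ x, BddBelow (Set.range fun z : H => φ z.1 + L (x * z.1⁻¹)) := fun x => by
    refine ⟨-L x⁻¹, ?_⟩
    rintro _ ⟨z, rfl⟩
    have h1 := hbnd _ z.2
    have h2 := hL x⁻¹ (x * z.1⁻¹)
    rw [inv_mul_cancel_left, hLinv z.1] at h2
    show -L x⁻¹ ≤ φ z.1 + L (x * z.1⁻¹)
    linarith [neg_abs_le (φ z.1)]
  refine ⟨fun x => ⨅ z : H, φ z.1 + L (x * z.1⁻¹), ?_, ?_⟩
  · have step : ∀ x w, w ∈ H →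
        (⨅ z : H, φ z.1 + L (x * w * z.1⁻¹)) ≤ (⨅ z : H, φ z.1 + L (x * z.1⁻¹)) + φ w := by
      intro x w hw
      rw [← sub_le_iff_le_add]
      refine le_ciInf fun z => sub_le_iff_le_add.2 ?_
      refine (ciInf_le (hbdd (x * w)) ⟨z.1 * w, H.mul_mem z.2 hw⟩).trans_eq ?_
      simp only [hadd z.1 w z.2 hw, mul_inv_rev, ← mul_assoc, mul_inv_cancel_right]
      ring
    intro x w hw
    refine le_antisymm (step x w hw) ?_
    have h' := step (x * w) w⁻¹ (H.inv_mem hw)
    rw [mul_inv_cancel_right, hinv w hw] at h'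
    linarith
  · intro a x
    have h1 : (⨅ z : H, φ z.1 + L (a * x * z.1⁻¹)) ≤ (⨅ z : H, φ z.1 + L (x * z.1⁻¹)) + L a := by
      rw [← sub_le_iff_le_add]
      refine le_ciInf fun z => sub_le_iff_le_add.2 ((ciInf_le (hbdd (a * x)) z).trans ?_)
      rw [mul_assoc]
      linarith [hL a (x * z.1⁻¹)]
    have h2 : (⨅ z : H, φ z.1 + L (x * z.1⁻¹)) ≤ (⨅ z : H, φ z.1 + L (a * x * z.1⁻¹)) + L a := by
      rw [← sub_le_iff_le_add]
      refine le_ciInf fun z => sub_le_iff_le_add.2 ((ciInf_le (hbdd x) z).trans ?_)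
      have := hL a⁻¹ (a * x * z.1⁻¹)
      rw [show a⁻¹ * (a * x * z.1⁻¹) = x * z.1⁻¹ by group, hLinv] at this
      linarith
    exact abs_sub_le_iff.2 ⟨by linarith, by linarith⟩

/-- The cocycle on the conjugacy class of `h` given by a potential. -/
theorem exists_classCocycle (h : G) (L φ F : G → ℝ)
    (hF1 : ∀ x w, w * h = h * w → F (x * w) = F x + φ w)
    (hF2 : ∀ a x, |F (a * x) - F x| ≤ L a) :
    ∃ Φ : G → G → ℝ, (∀ x y, |Φ x y| ≤ L x) ∧
      (∀ x y, x * y ∈ (ConjClasses.mk h).carrier → Φ x y + Φ y x = φ h) ∧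
      ∀ x y z, x * y * z ∈ (ConjClasses.mk h).carrier →
        Φ (x * y) z = Φ x (y * z) + Φ y (z * x) := by
  classical
  let u : G → G := fun g => if hu : ∃ v, v * h * v⁻¹ = g then hu.choose else 1
  have huS : ∀ g v, v * h * v⁻¹ = g → u g * h * (u g)⁻¹ = g := fun g v hv => by
    simp only [u, dif_pos (⟨v, hv⟩ : ∃ v, v * h * v⁻¹ = g)]
    exact (⟨v, hv⟩ : ∃ v, v * h * v⁻¹ = g).choose_spec
  let Φ : G → G → ℝ := fun x y => F (x * u (y * x)) - F (u (y * x))
  have hΦ : ∀ x y v, v * h * v⁻¹ = y * x → Φ x y = F (x * v) - F v := by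
    intro x y v hv
    have hw := huS _ v hv
    have hz : v⁻¹ * u (y * x) * h = h * (v⁻¹ * u (y * x)) := by
      have e : u (y * x) * h * (u (y * x))⁻¹ = v * h * v⁻¹ := hw.trans hv.symm
      calc v⁻¹ * u (y * x) * h
          = v⁻¹ * (u (y * x) * h * (u (y * x))⁻¹) * u (y * x) := by group
        _ = v⁻¹ * (v * h * v⁻¹) * u (y * x) := by rw [e]
        _ = h * (v⁻¹ * u (y * x)) := by group
    show F (x * u (y * x)) - F (u (y * x)) = F (x * v) - F v
    conv_lhs => rw [show u (y * x) = v * (v⁻¹ * u (y * x)) by group]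
    rw [← mul_assoc x v, hF1 _ _ hz, hF1 _ _ hz]
    ring
  have hmem : ∀ g, g ∈ (ConjClasses.mk h).carrier → ∃ v, v * h * v⁻¹ = g := fun g hg => by
    rw [ConjClasses.mem_carrier_iff_mk_eq, eq_comm, ConjClasses.mk_eq_mk_iff_isConj,
      isConj_iff] at hg
    exact hg
  refine ⟨Φ, fun x y => hF2 _ _, fun x y hxy => ?_, fun x y z hxyz => ?_⟩
  · obtain ⟨v, hv⟩ := hmem _ hxy
    have e1 : (x⁻¹ * v) * h * (x⁻¹ * v)⁻¹ = y * x := by
      calc _ = x⁻¹ * (v * h * v⁻¹) * x := by group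
        _ = _ := by rw [hv]; group
    rw [hΦ x y _ e1, hΦ y x v hv, mul_inv_cancel_left,
      show y * v = x⁻¹ * v * h by
        calc y * v = x⁻¹ * (x * y) * v := by group
          _ = _ := by rw [← hv]; group,
      hF1 (x⁻¹ * v) h rfl]
    ring
  · obtain ⟨v, hv⟩ := hmem _ hxyz
    have e1 : ((x * y)⁻¹ * v) * h * ((x * y)⁻¹ * v)⁻¹ = z * (x * y) := by
      calc _ = (x * y)⁻¹ * (v * h * v⁻¹) * (x * y) := by group
        _ = _ := by rw [hv]; group
    have e2 : (x⁻¹ * v) * h * (x⁻¹ * v)⁻¹ = y * z * x := by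
      calc _ = x⁻¹ * (v * h * v⁻¹) * x := by group
        _ = _ := by rw [hv]; group
    rw [hΦ (x * y) z _ e1, hΦ x (y * z) _ e2, hΦ y (z * x) _ (e1.trans (mul_assoc z x y).symm),
      mul_inv_cancel_left, mul_inv_cancel_left,
      show y * ((x * y)⁻¹ * v) = x⁻¹ * v by group]
    ring

/-- Vanishing at the class of an element with a bounded character on its centraliser. -/
theorem length_vanishing (e : IdemMatrix G q) (h : G) (L φ : G → ℝ)
    (hL : ∀ x y, L (x * y) ≤ L x + L y)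
    (hadd : ∀ z w, z * h = h * z → w * h = h * w → φ (z * w) = φ z + φ w)
    (hbnd : ∀ z, z * h = h * z → |φ z| ≤ L z) (hφ : φ h ≠ 0) :
    tau e (ConjClasses.mk h) = 0 := by
  let L' : G → ℝ := fun g => L g + L g⁻¹
  have h1 : 0 ≤ L 1 := by have := hL 1 1; rw [one_mul] at this; linarith
  have hL'0 : ∀ g, 0 ≤ L' g := fun g => by
    have := hL g g⁻¹
    rw [mul_inv_cancel] at this
    show 0 ≤ L g + L g⁻¹
    linarith
  have hL' : ∀ x y, L' (x * y) ≤ L' x + L' y := fun x y => by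
    show L (x * y) + L (x * y)⁻¹ ≤ L x + L x⁻¹ + (L y + L y⁻¹)
    rw [mul_inv_rev]
    linarith [hL x y, hL y⁻¹ x⁻¹]
  have hone : φ 1 = 0 := by
    have := hadd 1 1 (by simp) (by simp)
    rw [one_mul] at this
    linarith
  have hbnd' : ∀ z, z * h = h * z → |φ z| ≤ L' z := fun z hz => by
    have hz' : z⁻¹ * h = h * z⁻¹ := Commute.inv_left (hz : Commute z h)
    have e1 : φ z⁻¹ = -φ z := by
      have := hadd z z⁻¹ hz hz'
      rw [mul_inv_cancel, hone] at this
      linarith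
    have b1 := hbnd _ hz'
    rw [e1, abs_neg] at b1
    show |φ z| ≤ L z + L z⁻¹
    linarith [hbnd _ hz, abs_nonneg (φ z)]
  have hmemC : ∀ z, z ∈ Subgroup.centralizer ({h} : Set G) ↔ z * h = h * z := fun z => by
    rw [Subgroup.mem_centralizer_iff]
    simp [eq_comm]
  obtain ⟨F, hF1', hF2⟩ := exists_potential (Subgroup.centralizer ({h} : Set G)) L' φ hL'
    (fun x => by simp [L', add_comm])
    (fun z w hz hw => hadd z w ((hmemC z).1 hz) ((hmemC w).1 hw))
    fun z hz => hbnd' z ((hmemC z).1 hz)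
  have hF1 : ∀ x w, w * h = h * w → F (x * w) = F x + φ w :=
    fun x w hw => hF1' x w ((hmemC w).2 hw)
  obtain ⟨Φ, hΦ, hsum, hcoc⟩ := exists_classCocycle h L' φ F hF1 hF2
  let π : G →* Matrix (Fin 1) (Fin 1) ℂ := 1
  have hπ : ∀ g a b, ‖π g a b‖ ≤ 1 := fun g a b => by
    simp [π, Subsingleton.elim a b]
  set E := twist e π 1 hπ with hE
  obtain ⟨f, hf, hm, hclose⟩ := exists_moment_idem hL'0 hL' E (twist_idem e π 1 hπ)
  have hbd := norm_trace_le (n := Fin q × Fin 1)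
  have hc := classTrace_eq_of_close (trHom (Fin q × Fin 1)) _ hbd
    (fun x y => Matrix.trace_mul_comm x y) (conj_closed h) hf (twist_idem e π 1 hπ) hclose
  rw [classTrace_eq_zero_of_cocycle (trHom (Fin q × Fin 1)) _ hbd
    (fun x y => Matrix.trace_mul_comm x y) (conj_closed h) hL'0 hL' Φ (φ h) hφ hΦ hsum hcoc f hf hm,
    classTrace_twist] at hc
  simpa [π] using hc.symm

end Vale.Agent.P184
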