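import Mathlib
import Vale.Agent.P184.Length

/-!
An undistorted element with amenable centraliser has a real character on its centraliser which is
nonzero at the element and bounded by the length function.
-/

namespace Vale.Agent.P184

variable {G : Type*} [Group G]

/-- Translating a finite set changes the sum of a bounded function little. -/
theorem abs_sum_translate_sub_le (D : Finset G) (z : G) (g : G → ℝ) (B : ℝ)
    (hg : ∀ w, |g w| ≤ B) [DecidablePred fun w => z * w ∉ D] :
    |∑ w ∈ D, g (z * w) - ∑ w ∈ D, g w| ≤ 2 * B * (D.filter fun w => z * w ∉ D).card := by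
  classical
  set E := D.image (z * ·) with hE
  have hinj : Function.Injective (z * · : G → G) := mul_right_injective z
  have h1 : ∑ w ∈ D, g (z * w) = ∑ w ∈ E, g w :=
    (Finset.sum_image fun a _ b _ hab => hinj hab).symm
  have hcard : E.card = D.card := Finset.card_image_of_injective D hinj
  have hED : (E \ D).card = (D.filter fun w => z * w ∉ D).card := by
    rw [← Finset.card_image_of_injective (D.filter fun w => z * w ∉ D) hinj]
    congr 1
    ext w
    simp only [hE, Finset.mem_sdiff, Finset.mem_image, Finset.mem_filter]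
    constructor
    · rintro ⟨⟨v, hv, rfl⟩, hw⟩
      exact ⟨v, ⟨hv, hw⟩, rfl⟩
    · rintro ⟨v, ⟨hv, hw⟩, rfl⟩
      exact ⟨⟨v, hv, rfl⟩, hw⟩
  have hDE : (D \ E).card = (E \ D).card := Finset.card_sdiff_comm hcard.symm
  have hb : ∀ s : Finset G, |∑ w ∈ s, g w| ≤ s.card * B := fun s => by
    refine (Finset.abs_sum_le_sum_abs _ _).trans ((Finset.sum_le_sum fun w _ => hg w).trans ?_)
    simp
  rw [h1, ← Finset.sum_sdiff_sub_sum_sdiff]
  refine (abs_sub _ _).trans ((add_le_add (hb _) (hb _)).trans ?_)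
  rw [hDE, hED]
  linarith

/-- A character on the centraliser from translation length and invariant averages. -/
theorem exists_char_of_amenable (h : G) (L : G → ℝ) (hL0 : ∀ g, 0 ≤ L g)
    (hL : ∀ x y, L (x * y) ≤ L x + L y) (c : ℝ) (hc : 0 < c)
    (htr : ∀ n : ℕ, c * n ≤ L (h ^ n))
    (hfol : ∀ (K : Finset G), (∀ z ∈ K, z * h = h * z) → ∀ ε : ℝ, 0 < ε →
      ∃ D : Finset G, D.Nonempty ∧ (∀ w ∈ D, w * h = h * w) ∧
        ∀ z ∈ K, (Set.ncard {w | w ∈ D ∧ z * w ∉ D} : ℝ) ≤ ε * D.card) :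
    ∃ L' φ : G → ℝ, (∀ x y, L' (x * y) ≤ L' x + L' y) ∧
      (∀ z w, z * h = h * z → w * h = h * w → φ (z * w) = φ z + φ w) ∧
      (∀ z, z * h = h * z → |φ z| ≤ L' z) ∧ φ h ≠ 0 := by
  classical
  let L1' : G → ℝ := fun g => (L g + L g⁻¹) / c
  have hL1 : ∀ x y, L1' (x * y) ≤ L1' x + L1' y := fun x y => by
    show (L (x * y) + L (x * y)⁻¹) / c ≤ (L x + L x⁻¹) / c + (L y + L y⁻¹) / c
    rw [← add_div, mul_inv_rev]
    exact (div_le_div_iff_of_pos_right hc).2 (by linarith [hL x y, hL y⁻¹ x⁻¹])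
  have htrz : ∀ k : ℤ, |(k : ℝ)| ≤ L1' (h ^ k) := fun k => by
    show |(k : ℝ)| ≤ (L (h ^ k) + L (h ^ k)⁻¹) / c
    rw [le_div_iff₀ hc]
    rcases Int.eq_nat_or_neg k with ⟨n, rfl | rfl⟩
    · have := htr n
      simp only [zpow_natCast, Int.cast_natCast, Nat.abs_cast]
      linarith [hL0 (h ^ n)⁻¹]
    · have := htr n
      simp only [zpow_neg, zpow_natCast, Int.cast_neg, Int.cast_natCast, abs_neg, Nat.abs_cast,
        inv_inv]
      linarith [hL0 (h ^ n)⁻¹]
  have hinj : ∀ k l : ℤ, h ^ k = h ^ l → k = l := fun k l hkl => by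
    by_contra hne
    have h1 : h ^ (k - l) = h ^ (0 : ℤ) := by rw [zpow_sub, hkl, mul_inv_cancel, zpow_zero]
    have h2 : h ^ ((k - l).natAbs) = 1 := by
      rw [zpow_zero] at h1
      rcases Int.natAbs_eq (k - l) with e | e
      · rw [← zpow_natCast, ← e, h1]
      · rw [← zpow_natCast, show ((k - l).natAbs : ℤ) = -(k - l) by omega, zpow_neg, h1, inv_one]
    obtain ⟨m, hm⟩ := exists_nat_gt (L 1 / (c * ((k - l).natAbs : ℕ)))
    have hpos : (0 : ℝ) < ((k - l).natAbs : ℕ) := by
      exact_mod_cast Int.natAbs_pos.2 (sub_ne_zero.2 hne)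
    have h3 := htr ((k - l).natAbs * m)
    rw [pow_mul, h2, one_pow] at h3
    rw [div_lt_iff₀ (by positivity)] at hm
    push_cast at h3
    linarith
  let φ₀ : G → ℝ := fun g => if hg : ∃ k : ℤ, h ^ k = g then (hg.choose : ℝ) else 0
  have hφ₀ : ∀ k : ℤ, φ₀ (h ^ k) = k := fun k => by
    have hg : ∃ l : ℤ, h ^ l = h ^ k := ⟨k, rfl⟩
    simp only [φ₀, dif_pos hg]
    exact_mod_cast hinj _ _ hg.choose_spec
  obtain ⟨F, hF1, hF2⟩ := exists_potential (Subgroup.zpowers h) L1' φ₀ hL1
    (fun x => by simp [L1', add_comm])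
    (by
      rintro z w ⟨k, rfl⟩ ⟨l, rfl⟩
      dsimp only
      rw [← zpow_add, hφ₀, hφ₀, hφ₀]
      push_cast
      ring)
    (by
      rintro z ⟨k, rfl⟩
      dsimp only
      rw [hφ₀]
      exact htrz k)
  have hFh : ∀ x, F (x * h) = F x + 1 := fun x => by
    have h1 := hF1 x h (Subgroup.mem_zpowers h)
    have h2 := hφ₀ 1
    rw [zpow_one, Int.cast_one] at h2
    rwa [h2] at h1
  let C : Set G := {z | z * h = h * z}
  have hex : ∀ i : Finset C × ℕ, ∃ D : Finset G, D.Nonempty ∧ (∀ w ∈ D, w * h = h * w) ∧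
      ∀ z ∈ i.1, ((D.filter fun w => (z : G) * w ∉ D).card : ℝ) ≤ 1 / ((i.2 : ℝ) + 1) * D.card :=
    fun i => by
    obtain ⟨D, hD1, hD2, hD3⟩ := hfol (i.1.map ⟨Subtype.val, Subtype.val_injective⟩)
      (fun z hz => by
        obtain ⟨z', -, rfl⟩ := Finset.mem_map.1 hz
        exact z'.2) (1 / ((i.2 : ℝ) + 1)) (by positivity)
    refine ⟨D, hD1, hD2, fun z hz => ?_⟩
    have h1 := hD3 z (Finset.mem_map.2 ⟨z, hz, rfl⟩)
    have e : {w | w ∈ D ∧ (z : G) * w ∉ D} =
        ((D.filter fun w => (z : G) * w ∉ D : Finset G) : Set G) := by ext; simp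
    rwa [e, Set.ncard_coe_finset] at h1
  choose D hD1 hD2 hD3 using hex
  let A : G → Finset C × ℕ → ℝ := fun z i =>
    (∑ w ∈ D i, (F (z * w) - F w)) / (D i).card
  have hAb : ∀ z i, |A z i| ≤ L1' z := fun z i => by
    have hp : (0 : ℝ) < (D i).card := by exact_mod_cast (hD1 i).card_pos
    simp only [A, abs_div, Nat.abs_cast]
    rw [div_le_iff₀ hp]
    refine (Finset.abs_sum_le_sum_abs _ _).trans ((Finset.sum_le_sum fun w _ => hF2 z w).trans ?_)
    simp [mul_comm]
  let U : Ultrafilter (Finset C × ℕ) := Ultrafilter.of Filter.atTop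
  have hlim : ∀ z, ∃ a, |a| ≤ L1' z ∧ Filter.Tendsto (A z) U (nhds a) := fun z => by
    obtain ⟨a, ha, hta⟩ := isCompact_Icc.ultrafilter_le_nhds (U.map (A z))
      (by
        rw [Ultrafilter.coe_map, Filter.le_principal_iff, Filter.mem_map]
        exact Filter.univ_mem' fun i => abs_le.1 (hAb z i))
    exact ⟨a, abs_le.2 ha, hta⟩
  choose φ hφb hφl using hlim
  refine ⟨L1', φ, hL1, fun z w hz hw => ?_, fun z _ => hφb z, ?_⟩
  · have hd : Filter.Tendsto (fun i => A (z * w) i - (A z i + A w i)) U (nhds 0) := by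
      have htop : Filter.Tendsto (fun i : Finset C × ℕ => 2 * L1' z * (1 / ((i.2 : ℝ) + 1)))
          Filter.atTop (nhds 0) := by
        have h1 : Filter.Tendsto (fun i : Finset C × ℕ => i.2) Filter.atTop Filter.atTop := by
          rw [← Filter.prod_atTop_atTop_eq]
          exact Filter.tendsto_snd
        simpa [Function.comp_def] using
          ((tendsto_one_div_add_atTop_nhds_zero_nat.comp h1).const_mul (2 * L1' z))
      refine squeeze_zero_norm' ?_ (htop.mono_left (Ultrafilter.of_le _))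
      refine Filter.Eventually.filter_mono (Ultrafilter.of_le _) ?_
      refine Filter.eventually_atTop.2 ⟨({⟨w, hw⟩}, 0), fun i hi => ?_⟩
      have hp : (0 : ℝ) < (D i).card := by exact_mod_cast (hD1 i).card_pos
      have e : A (z * w) i - (A z i + A w i) =
          (∑ v ∈ D i, (F (z * (w * v)) - F (w * v)) - ∑ v ∈ D i, (F (z * v) - F v))
            / (D i).card := by
        simp only [A, ← mul_assoc, Finset.sum_sub_distrib]
        field_simp
        ring
      rw [Real.norm_eq_abs, e, abs_div, Nat.abs_cast, div_le_iff₀ hp]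
      have hLz : 0 ≤ L1' z := (abs_nonneg _).trans (hF2 z 1)
      calc |∑ v ∈ D i, (F (z * (w * v)) - F (w * v)) - ∑ v ∈ D i, (F (z * v) - F v)|
          ≤ 2 * L1' z * ((D i).filter fun v => w * v ∉ D i).card :=
            abs_sum_translate_sub_le (D i) w (fun v => F (z * v) - F v) _ fun v => hF2 z v
        _ ≤ 2 * L1' z * (1 / ((i.2 : ℝ) + 1) * (D i).card) := by
            gcongr
            exact hD3 i ⟨w, hw⟩ (hi.1 (Finset.mem_singleton_self _))
        _ = _ := by ring
    have h2 : Filter.Tendsto (fun i => A (z * w) i - (A z i + A w i)) U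
        (nhds (φ (z * w) - (φ z + φ w))) := (hφl _).sub ((hφl z).add (hφl w))
    linarith [tendsto_nhds_unique hd h2]
  · have h1 : ∀ i, A h i = 1 := fun i => by
      have hp : ((D i).card : ℝ) ≠ 0 := by exact_mod_cast (hD1 i).card_pos.ne'
      have : ∀ v ∈ D i, F (h * v) - F v = 1 := fun v hv => by
        rw [← hD2 i v hv, hFh]
        ring
      simp only [A, Finset.sum_congr rfl this]
      simp [hp]
    have h2 : Filter.Tendsto (A h) U (nhds 1) := by
      simp only [funext h1]
      exact tendsto_const_nhds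
    rw [tendsto_nhds_unique (hφl h) h2]
    exact one_ne_zero

end Vale.Agent.P184
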