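import Mathlib
import Vale.Agent.P184.Twist

/-!
Monomial representations induced from characters of finite-index subgroups, and the
vanishing of traces at classes seen by real characters of such subgroups.
-/

namespace Vale.Agent.P184

open Matrix

variable {G : Type*} [Group G] (H : Subgroup G)

theorem cocycle_mem (g : G) (y : G ⧸ H) : (g • y).out⁻¹ * g * y.out ∈ H := by
  rw [mul_assoc, ← QuotientGroup.eq, QuotientGroup.out_eq']
  conv_lhs => rw [← QuotientGroup.out_eq' y]
  rfl

/-- The monomial cocycle of `G` on `G ⧸ H` with values in `H`. -/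
noncomputable def cocycle (g : G) (y : G ⧸ H) : H := ⟨_, cocycle_mem H g y⟩

theorem cocycle_mul (g h : G) (y : G ⧸ H) :
    cocycle H (g * h) y = cocycle H g (h • y) * cocycle H h y := by
  apply Subtype.ext
  simp only [cocycle, Subgroup.coe_mul, mul_smul]
  group

theorem cocycle_one (y : G ⧸ H) : cocycle H 1 y = 1 := by
  apply Subtype.ext
  simp [cocycle, one_smul]

variable [Fintype (G ⧸ H)] [DecidableEq (G ⧸ H)]

/-- The representation induced from a character of `H`. -/
noncomputable def indRep (χ : H →* ℂ) : G →* Matrix (G ⧸ H) (G ⧸ H) ℂ where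
  toFun g := Matrix.of fun x y => if x = g • y then χ (cocycle H g y) else 0
  map_one' := by
    ext x y
    simp only [one_smul, cocycle_one, map_one, of_apply, Matrix.one_apply]
  map_mul' g h := by
    ext x y
    simp only [of_apply, Matrix.mul_apply]
    rw [Finset.sum_eq_single (h • y)]
    · simp only [mul_smul, cocycle_mul, map_mul, if_pos]
      split <;> simp
    · intro z _ hz
      simp [hz]
    · simp

theorem indRep_apply (χ : H →* ℂ) (g : G) (x y : G ⧸ H) :
    indRep H χ g x y = if x = g • y then χ (cocycle H g y) else 0 := rfl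

/-- The circle-valued character `h ↦ exp (i t ψ(h))`. -/
noncomputable def phase (ψ : H →* Multiplicative ℝ) (t : ℝ) : H →* ℂ where
  toFun h := Complex.exp ((t * (ψ h).toAdd : ℝ) * Complex.I)
  map_one' := by simp
  map_mul' a b := by
    rw [map_mul, toAdd_mul, ← Complex.exp_add]
    push_cast
    ring_nf

theorem phase_apply (ψ : H →* Multiplicative ℝ) (t : ℝ) (h : H) :
    phase H ψ t h = Complex.exp ((t * (ψ h).toAdd : ℝ) * Complex.I) := rfl

/-- Vanishing at every class containing an element of `H` on which `ψ` is nontrivial. -/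
theorem finiteIndex_vanishing {q : ℕ} (e : IdemMatrix G q)
    (ψ : H →* Multiplicative ℝ) (h : H) (hh : ψ h ≠ 1) :
    tau e (ConjClasses.mk (h : G)) = 0 := by
  set r : ℝ := (ψ h).toAdd with hr
  have hr0 : r ≠ 0 := fun h0 => hh (by
    apply Multiplicative.toAdd.injective
    simpa [hr] using h0)
  let ρ : ℝ → (G →* Matrix (G ⧸ H) (G ⧸ H) ℂ) := fun t =>
    indRep H (phase H ψ (t * (Real.pi / r)))
  have hM : ∀ t g a b, ‖ρ t g a b‖ ≤ 1 := by
    intro t g a b
    simp only [ρ, indRep_apply, phase_apply]
    split
    · rw [Complex.norm_exp_ofReal_mul_I]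
    · simp
  have hρ : ∀ g, Continuous fun t => ρ t g := by
    intro g
    refine continuous_matrix fun a b => ?_
    simp only [ρ, indRep_apply, phase_apply]
    split_ifs
    · fun_prop
    · exact continuous_const
  have key := path_vanishing e ρ 1 hM hρ (h : G)
  rcases mul_eq_zero.1 key with hz | hz
  · exfalso
    have hre := congrArg Complex.re hz
    simp only [Complex.sub_re, Complex.zero_re, Matrix.trace, Matrix.diag_apply, Complex.re_sum,
      ρ, indRep_apply, phase_apply] at hre
    rw [← Finset.sum_sub_distrib] at hre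
    have hle : ∀ y ∈ (Finset.univ : Finset (G ⧸ H)),
        ((if y = (h : G) • y then
          Complex.exp (((1 * (Real.pi / r)) * (ψ (cocycle H h y)).toAdd : ℝ) * Complex.I) else 0).re
        - (if y = (h : G) • y then
          Complex.exp (((0 * (Real.pi / r)) * (ψ (cocycle H h y)).toAdd : ℝ) * Complex.I) else 0).re)
          ≤ 0 := by
      intro y _
      split_ifs
      · rw [Complex.exp_ofReal_mul_I_re, Complex.exp_ofReal_mul_I_re]
        simpa using Real.cos_le_one _
      · simp
    have hfix : ((1 : G) : G ⧸ H) = (h : G) • ((1 : G) : G ⧸ H) := by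
      change _ = (((h : G) * 1 : G) : G ⧸ H)
      rw [eq_comm, QuotientGroup.eq]
      simp
    have hy := (Finset.sum_eq_zero_iff_of_nonpos hle).1 hre ((1 : G) : G ⧸ H)
      (Finset.mem_univ _)
    rw [if_pos hfix, if_pos hfix, Complex.exp_ofReal_mul_I_re,
      Complex.exp_ofReal_mul_I_re] at hy
    have hc : (ψ (cocycle H h ((1 : G) : G ⧸ H))).toAdd = r := by
      have hk : ((1 : G) : G ⧸ H).out ∈ H := by
        have h1 := QuotientGroup.out_eq' ((1 : G) : G ⧸ H)
        rw [QuotientGroup.eq] at h1
        simpa using h1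
      have hc0 : cocycle H h ((1 : G) : G ⧸ H) =
          (⟨_, hk⟩ : H)⁻¹ * h * ⟨_, hk⟩ := by
        apply Subtype.ext
        simp [cocycle, ← hfix]
      rw [hc0, map_mul ψ, map_mul ψ, map_inv ψ, toAdd_mul, toAdd_mul, toAdd_inv, hr]
      ring
    rw [hc, one_mul, div_mul_cancel₀ _ hr0] at hy
    norm_num at hy
  · exact hz

end Vale.Agent.P184
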